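import Vale.Agent.P078.Std.Def

/-!
# P078: elementary facts about the trace, its `L²` norm and partitions
-/

noncomputable section

namespace Vale.Agent.P078

open scoped InnerProductSpace Topology
open Filter

universe u

variable {H : Type u} [NormedAddCommGroup H] [InnerProductSpace ℂ H] [CompleteSpace H]

theorem inner_star_apply (x : Op H) (u v : H) : ⟪u, star x v⟫_ℂ = ⟪x u, v⟫_ℂ := by
  rw [ContinuousLinearMap.star_eq_adjoint, ContinuousLinearMap.adjoint_inner_right]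

namespace Std

variable (S : Std H)

theorem M_isClosed : IsClosed (S.M : Set (Op H)) := by
  refine isClosed_of_closure_subset fun T hT => S.strong_closed T ?_
  obtain ⟨y, hy, hy1⟩ : ∃ y ∈ S.M, ‖T - y‖ < 1 := by
    obtain ⟨y, hy, h⟩ := Metric.mem_closure_iff.1 hT 1 one_pos
    exact ⟨y, hy, by rwa [← dist_eq_norm]⟩
  refine ⟨‖T‖ + 1, fun F ε hε => ?_⟩
  obtain ⟨B, hB⟩ : ∃ B : ℝ, ∀ v ∈ F, ‖v‖ ≤ B :=
    ⟨∑ v ∈ F, ‖v‖, fun v hv => Finset.single_le_sum (fun w _ => norm_nonneg w) hv⟩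
  obtain ⟨x, hx, hxT⟩ := Metric.mem_closure_iff.1 hT (min 1 (ε / (|B| + 1)))
    (lt_min one_pos (by positivity))
  rw [dist_eq_norm, lt_min_iff] at hxT
  refine ⟨x, hx, ?_, fun v hv => ?_⟩
  · calc ‖x‖ = ‖T - (T - x)‖ := by rw [sub_sub_cancel]
      _ ≤ ‖T‖ + ‖T - x‖ := norm_sub_le _ _
      _ ≤ ‖T‖ + 1 := by linarith [hxT.1]
  · have h1 : ‖x v - T v‖ ≤ ‖T - x‖ * ‖v‖ := by
      rw [← norm_neg, neg_sub]
      exact (T - x).le_opNorm v
    have h2 : ‖T - x‖ * ‖v‖ ≤ ε / (|B| + 1) * |B| :=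
      mul_le_mul hxT.2.le ((hB v hv).trans (le_abs_self B)) (norm_nonneg v) (by positivity)
    have h3 : ε / (|B| + 1) * |B| < ε := by
      rw [div_mul_eq_mul_div, div_lt_iff₀ (by positivity)]
      nlinarith [abs_nonneg B]
    linarith

theorem A_isClosed : IsClosed (S.A : Set (Op H)) := by
  have h : (S.A : Set (Op H)) = (S.M : Set (Op H)) ∩ ⋂ a ∈ S.A, {x | a * x = x * a} := by
    ext x
    simp only [Set.mem_inter_iff, Set.mem_iInter, Set.mem_ofPred_eq, SetLike.mem_coe]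
    exact ⟨fun hx => ⟨S.A_le hx, fun a ha => S.A_comm a ha x hx⟩, fun hx => S.A_max x hx.1 hx.2⟩
  rw [h]
  exact S.M_isClosed.inter (isClosed_biInter fun a _ =>
    isClosed_eq (continuous_const.mul continuous_id) (continuous_id.mul continuous_const))

theorem cfc_mem_A (f : ℝ → ℝ) {a : Op H} (ha : a ∈ S.A) : cfc f a ∈ S.A :=
  cfc_mem (𝕜' := ℂ) (hs := S.A_isClosed) f ha

theorem cfc_mem_M (f : ℝ → ℝ) {x : Op H} (hx : x ∈ S.M) : cfc f x ∈ S.M :=
  cfc_mem (𝕜' := ℂ) (hs := S.M_isClosed) f hx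

/-! ### The trace and its norm -/

theorem tau_add (x y : Op H) : S.tau (x + y) = S.tau x + S.tau y := inner_add_right _ _ _

theorem tau_sub (x y : Op H) : S.tau (x - y) = S.tau x - S.tau y := inner_sub_right _ _ _

theorem tau_smul (c : ℂ) (x : Op H) : S.tau (c • x) = c * S.tau x := inner_smul_right _ _ _

theorem tau_one : S.tau 1 = 1 := by
  simp [tau, inner_self_eq_norm_sq_to_K, S.norm_Ω]

theorem tau_zero : S.tau 0 = 0 := by simp [tau]

theorem tau_sum {ι : Type*} (s : Finset ι) (x : ι → Op H) :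
    S.tau (∑ i ∈ s, x i) = ∑ i ∈ s, S.tau (x i) := by
  unfold tau
  rw [ContinuousLinearMap.sum_apply, inner_sum]

theorem tau_comm {x y : Op H} (hx : x ∈ S.M) (hy : y ∈ S.M) : S.tau (x * y) = S.tau (y * x) :=
  S.tracial x hx y hy

theorem tau_star (x : Op H) : S.tau (star x) = starRingEnd ℂ (S.tau x) := by
  unfold tau
  rw [inner_star_apply, inner_conj_symm]

theorem tau_star_mul (x y : Op H) : S.tau (star x * y) = ⟪x S.Ω, y S.Ω⟫_ℂ :=
  inner_star_apply x S.Ω (y S.Ω)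

theorem norm_tau_le_n2 (x y : Op H) : ‖S.tau (star x * y)‖ ≤ S.n2 x * S.n2 y := by
  rw [tau_star_mul]
  exact norm_inner_le_norm _ _

theorem norm_tau_le (x : Op H) : ‖S.tau x‖ ≤ S.n2 x := by
  have h := norm_inner_le_norm (𝕜 := ℂ) S.Ω (x S.Ω)
  rwa [S.norm_Ω, one_mul] at h

theorem n2_nonneg (x : Op H) : 0 ≤ S.n2 x := norm_nonneg _

theorem n2_sq (x : Op H) : S.n2 x ^ 2 = (S.tau (star x * x)).re := by
  rw [tau_star_mul, inner_self_eq_norm_sq_to_K, n2]
  norm_cast

theorem n2_add_le (x y : Op H) : S.n2 (x + y) ≤ S.n2 x + S.n2 y := norm_add_le _ _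

theorem n2_sub_le (x y z : Op H) : S.n2 (x - z) ≤ S.n2 (x - y) + S.n2 (y - z) := by
  unfold n2
  rw [show (x - z) S.Ω = (x - y) S.Ω + (y - z) S.Ω by simp]
  exact norm_add_le _ _

theorem n2_sub_comm (x y : Op H) : S.n2 (x - y) = S.n2 (y - x) := by
  unfold n2
  rw [← norm_neg]
  congr 1
  simp

theorem n2_smul (c : ℂ) (x : Op H) : S.n2 (c • x) = ‖c‖ * S.n2 x := norm_smul _ _

theorem n2_le_norm (x : Op H) : S.n2 x ≤ ‖x‖ := by
  simpa [n2, S.norm_Ω] using x.le_opNorm S.Ω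

theorem n2_one : S.n2 1 = 1 := by simp [n2, S.norm_Ω]

theorem n2_star {x : Op H} (hx : x ∈ S.M) : S.n2 (star x) = S.n2 x := by
  refine (sq_eq_sq₀ (S.n2_nonneg _) (S.n2_nonneg _)).1 ?_
  rw [n2_sq, n2_sq, star_star, S.tau_comm hx (star_mem hx)]

theorem n2_mul_le (x y : Op H) : S.n2 (x * y) ≤ ‖x‖ * S.n2 y := x.le_opNorm (y S.Ω)

theorem n2_mul_le' {x y : Op H} (hx : x ∈ S.M) (hy : y ∈ S.M) :
    S.n2 (x * y) ≤ S.n2 x * ‖y‖ := by
  rw [← S.n2_star (mul_mem hx hy), star_mul]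
  refine (S.n2_mul_le _ _).trans ?_
  rw [S.n2_star hx, norm_star, mul_comm]

/-- The trace vector separates `M`. -/
theorem eq_zero_of_n2 {x : Op H} (hx : x ∈ S.M) (h : S.n2 x = 0) : x = 0 := by
  refine ContinuousLinearMap.coeFn_injective
    (Continuous.ext_on S.cyclic x.continuous continuous_const ?_)
  rintro _ ⟨y, hy, rfl⟩
  have h1 := S.n2_mul_le' hx hy
  rw [h, zero_mul] at h1
  exact norm_eq_zero.1 (le_antisymm h1 (norm_nonneg _))

theorem eq_of_n2 {x y : Op H} (hx : x ∈ S.M) (hy : y ∈ S.M) (h : S.n2 (x - y) = 0) : x = y :=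
  sub_eq_zero.1 (S.eq_zero_of_n2 (sub_mem hx hy) h)

/-- Elements of `M` are equal when all traces against `M` agree. -/
theorem eq_of_tau {x y : Op H} (hx : x ∈ S.M) (hy : y ∈ S.M)
    (h : S.tau (star (x - y) * x) = S.tau (star (x - y) * y)) : x = y := by
  refine S.eq_of_n2 hx hy ?_
  have h1 : S.n2 (x - y) ^ 2 = 0 := by
    rw [n2_sq, mul_sub, tau_sub, h, sub_self]; simp
  exact pow_eq_zero_iff two_ne_zero |>.1 h1

theorem n2_eq_zero_of_tendsto {x : ℕ → Op H} {y z : Op H} (hy : y ∈ S.M) (hz : z ∈ S.M)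
    (h1 : Tendsto (fun n => S.n2 (x n - y)) atTop (𝓝 0))
    (h2 : Tendsto (fun n => S.n2 (x n - z)) atTop (𝓝 0)) : y = z := by
  refine S.eq_of_n2 hy hz (le_antisymm ?_ (S.n2_nonneg _))
  have h3 := h1.add h2
  rw [add_zero] at h3
  refine ge_of_tendsto' h3 fun n => ?_
  rw [S.n2_sub_comm (x n) y]
  exact S.n2_sub_le _ _ _

/-- A bounded sequence of `M`, Cauchy in `L²`, converges strongly to an element of `M`. -/
theorem exists_strong_limit {x : ℕ → Op H} {C : ℝ} (hx : ∀ n, x n ∈ S.M) (hC : ∀ n, ‖x n‖ ≤ C)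
    (hcau : CauchySeq fun n => x n S.Ω) :
    ∃ y ∈ S.M, ‖y‖ ≤ C ∧ (∀ v, Tendsto (fun n => x n v) atTop (𝓝 (y v))) ∧
      Tendsto (fun n => S.n2 (x n - y)) atTop (𝓝 0) := by
  have hC0 : 0 ≤ C := (norm_nonneg _).trans (hC 0)
  rw [Metric.cauchySeq_iff] at hcau
  have hdense : ∀ v, CauchySeq fun n => x n v := by
    intro v
    rw [Metric.cauchySeq_iff]
    intro ε hε
    obtain ⟨w, ⟨z, hz, rfl⟩, hwv⟩ := Metric.mem_closure_iff.1 (S.cyclic v) (ε / (4 * (C + 1)))
      (by positivity)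
    obtain ⟨N, hN⟩ := hcau (ε / (4 * (‖z‖ + 1))) (by positivity)
    refine ⟨N, fun m hm n hn => ?_⟩
    have hmn := hN m hm n hn
    rw [dist_eq_norm] at hmn hwv ⊢
    have h1 : ‖(x m - x n) (z S.Ω)‖ < ε / 4 := by
      refine lt_of_le_of_lt (S.n2_mul_le' (sub_mem (hx m) (hx n)) hz) ?_
      calc S.n2 (x m - x n) * ‖z‖ ≤ ε / (4 * (‖z‖ + 1)) * ‖z‖ :=
            mul_le_mul_of_nonneg_right hmn.le (norm_nonneg z)
        _ < ε / 4 := by
            rw [div_mul_eq_mul_div, div_lt_div_iff₀ (by positivity) (by norm_num)]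
            nlinarith [norm_nonneg z]
    have h2 : ‖(x m - x n) (v - z S.Ω)‖ ≤ (C + C) * (ε / (4 * (C + 1))) :=
      ((x m - x n).le_opNorm _).trans (mul_le_mul ((norm_sub_le _ _).trans
        (add_le_add (hC m) (hC n))) hwv.le (norm_nonneg _) (by positivity))
    have h3 : (C + C) * (ε / (4 * (C + 1))) ≤ ε / 2 := by
      rw [mul_div_assoc', div_le_div_iff₀ (by positivity) (by norm_num)]
      nlinarith
    calc ‖x m v - x n v‖ = ‖(x m - x n) (v - z S.Ω) + (x m - x n) (z S.Ω)‖ := by simp; abel_nf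
      _ ≤ _ := norm_add_le _ _
      _ < ε := by linarith
  choose f hf using fun v => cauchySeq_tendsto_of_complete (hdense v)
  let g : H →ₗ[ℂ] H :=
    { toFun := f
      map_add' := fun u v => tendsto_nhds_unique (hf (u + v)) (by
        simpa using (hf u).add (hf v))
      map_smul' := fun c v => tendsto_nhds_unique (hf (c • v)) (by
        simpa using (hf v).const_smul c) }
  have hg : ∀ v, ‖g v‖ ≤ C * ‖v‖ := fun v =>
    le_of_tendsto' (hf v).norm fun n =>
      ((x n).le_opNorm v).trans (mul_le_mul_of_nonneg_right (hC n) (norm_nonneg v))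
  refine ⟨g.mkContinuous C hg, S.strong_closed _ ⟨C, fun F ε hε => ?_⟩,
    LinearMap.mkContinuous_norm_le _ hC0 _, hf, ?_⟩
  · have h : ∀ v ∈ F, ∀ᶠ n in atTop, ‖x n v - f v‖ < ε := fun v _ => by
      simpa [dist_eq_norm] using Metric.tendsto_nhds.1 (hf v) ε hε
    obtain ⟨n, hn⟩ := ((eventually_all_finset F).2 h).exists
    exact ⟨x n, hx n, hC n, hn⟩
  · simpa [n2, g] using tendsto_iff_norm_sub_tendsto_zero.1 (hf S.Ω)

end Std

/-! ### Pinchings and partitions -/

theorem IsPart.mul_self {A : Set (Op H)} {e : Op H} {n : ℕ} {p : Fin n → Op H}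
    (h : IsPart A e p) (i : Fin n) : p i * p i = p i :=
  (h.1 i).2.isIdempotentElem.eq

theorem IsPart.star_eq {A : Set (Op H)} {e : Op H} {n : ℕ} {p : Fin n → Op H}
    (h : IsPart A e p) (i : Fin n) : star (p i) = p i :=
  (h.1 i).2.isSelfAdjoint.star_eq

theorem IsPart.mul_eq_ite {A : Set (Op H)} {e : Op H} {n : ℕ} {p : Fin n → Op H}
    (h : IsPart A e p) (i j : Fin n) : p i * p j = if i = j then p i else 0 := by
  by_cases hij : i = j
  · subst hij; simp [h.mul_self]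
  · simp [hij, h.2.1 i j hij]

theorem pinch_add {n : ℕ} (p : Fin n → Op H) (x y : Op H) :
    pinch p (x + y) = pinch p x + pinch p y := by
  simp [pinch, mul_add, add_mul, Finset.sum_add_distrib]

theorem pinch_smul {n : ℕ} (p : Fin n → Op H) (c : ℂ) (x : Op H) :
    pinch p (c • x) = c • pinch p x := by
  simp [pinch, Finset.smul_sum]

theorem star_pinch {A : Set (Op H)} {e : Op H} {n : ℕ} {p : Fin n → Op H} (h : IsPart A e p)
    (x : Op H) : star (pinch p x) = pinch p (star x) := by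
  simp [pinch, star_sum, star_mul, h.star_eq, mul_assoc]

theorem pinch_nonneg {A : Set (Op H)} {e : Op H} {n : ℕ} {p : Fin n → Op H} (h : IsPart A e p)
    {x : Op H} (hx : 0 ≤ x) : 0 ≤ pinch p x := by
  refine Finset.sum_nonneg fun i _ => ?_
  have h1 := star_left_conjugate_nonneg hx (p i)
  rwa [h.star_eq] at h1

theorem mul_pinch {A : Set (Op H)} {e : Op H} {n : ℕ} {p : Fin n → Op H} (h : IsPart A e p)
    (j : Fin n) (x : Op H) : p j * pinch p x = p j * x * p j ∧ pinch p x * p j = p j * x * p j := by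
  constructor
  · simp only [pinch, Finset.mul_sum, ← mul_assoc, h.mul_eq_ite, ite_mul, zero_mul]
    rw [Finset.sum_ite_eq]
    simp
  · simp only [pinch, Finset.sum_mul, mul_assoc, h.mul_eq_ite, mul_ite, mul_zero]
    rw [Finset.sum_ite_eq']
    simp

/-- Orthogonal pieces: the norm squared of a sum. -/
theorem norm_sum_sq_of_orth {A : Set (Op H)} {e : Op H} {n : ℕ} {p : Fin n → Op H}
    (h : IsPart A e p) (w : Fin n → H) :
    ‖∑ i, p i (w i)‖ ^ 2 = ∑ i, ‖p i (w i)‖ ^ 2 := by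
  have h0 : ∀ i j, ⟪p i (w i), p j (w j)⟫_ℂ =
      if i = j then (((‖p i (w i)‖ ^ 2 : ℝ)) : ℂ) else 0 := by
    intro i j
    by_cases hij : i = j
    · subst hij
      rw [if_pos rfl, inner_self_eq_norm_sq_to_K]
      simp
    · rw [if_neg hij, ← inner_star_apply, h.star_eq,
        show p i (p j (w j)) = (p i * p j) (w j) from rfl, h.2.1 i j hij]
      simp
  have h1 : ⟪∑ i, p i (w i), ∑ j, p j (w j)⟫_ℂ = ((∑ i, ‖p i (w i)‖ ^ 2 : ℝ) : ℂ) := by
    rw [sum_inner, Complex.ofReal_sum]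
    refine Finset.sum_congr rfl fun i _ => ?_
    rw [inner_sum, Finset.sum_congr rfl fun j _ => h0 i j, Finset.sum_ite_eq]
    simp
  rw [inner_self_eq_norm_sq_to_K] at h1
  exact Complex.ofReal_injective (by simpa using h1)

theorem norm_pinch_le {A : Set (Op H)} {n : ℕ} {p : Fin n → Op H} (h : IsPart A 1 p) (x : Op H) :
    ‖pinch p x‖ ≤ ‖x‖ := by
  refine ContinuousLinearMap.opNorm_le_bound _ (norm_nonneg x) fun v => ?_
  refine abs_le_of_sq_le_sq' ?_ (by positivity) |>.2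
  have h1 : pinch p x v = ∑ i, p i (x (p i v)) := by simp [pinch]
  have h2 : v = ∑ i, p i v := by
    conv_lhs => rw [show v = (1 : Op H) v from rfl, ← h.2.2]
    simp
  have h3 : ∀ i, ‖p i (x (p i v))‖ ≤ ‖x‖ * ‖p i v‖ := by
    intro i
    have hp : ‖p i‖ ≤ 1 := IsStarProjection.norm_le _ (h.1 i).2
    exact ((p i).le_opNorm _).trans (((mul_le_mul_of_nonneg_right hp (norm_nonneg _)).trans
      (one_mul _).le).trans (x.le_opNorm _))
  rw [h1, norm_sum_sq_of_orth h, mul_pow]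
  calc ∑ i, ‖p i (x (p i v))‖ ^ 2 ≤ ∑ i, ‖x‖ ^ 2 * ‖p i v‖ ^ 2 :=
        Finset.sum_le_sum fun i _ => by
          rw [← mul_pow]; exact pow_le_pow_left₀ (norm_nonneg _) (h3 i) 2
    _ = ‖x‖ ^ 2 * ‖v‖ ^ 2 := by
        rw [← Finset.mul_sum, ← norm_sum_sq_of_orth h (fun _ => v), ← h2]

namespace Std

variable {S : Std H}

/-- The trivial partition. -/
def Parti.one (S : Std H) : S.Parti :=
  ⟨1, fun _ => 1, fun _ => ⟨one_mem S.A, IsStarProjection.one _⟩,
    fun i j h => absurd (Subsingleton.elim i j) h, by simp⟩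

/-- The partition given by a projection and its complement. -/
def Parti.ofProj {e : Op H} (he : e ∈ S.A) (hp : IsStarProjection e) : S.Parti :=
  ⟨2, ![e, 1 - e], fun i => by
      fin_cases i
      · exact ⟨he, hp⟩
      · exact ⟨sub_mem (one_mem S.A) he, hp.one_sub⟩, fun i j h => by
      fin_cases i <;> fin_cases j <;>
        simp_all [mul_sub, sub_mul, hp.isIdempotentElem.eq], by simp⟩

theorem Parti.Refines.refl (P : S.Parti) : P.Refines P := ⟨id, fun j => by simp⟩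

theorem Parti.Refines.mul_eq {Q P : S.Parti} {f : Fin Q.n → Fin P.n}
    (hf : ∀ j, P.p j = ∑ i, if f i = j then Q.p i else 0) (i : Fin Q.n) (j : Fin P.n) :
    Q.p i * P.p j = (if f i = j then Q.p i else 0) ∧
      P.p j * Q.p i = (if f i = j then Q.p i else 0) := by
  have key : Q.p i * P.p j = if f i = j then Q.p i else 0 := by
    rw [hf j, Finset.mul_sum, Finset.sum_eq_single i]
    · simp [Q.isPart.mul_self]
    · intro k _ hk; simp [Q.isPart.2.1 i k (Ne.symm hk)]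
    · simp
  exact ⟨key, by rw [S.A_comm _ (P.isPart.1 j).1 _ (Q.isPart.1 i).1, key]⟩

theorem Parti.Refines.trans {R Q P : S.Parti} (h : R.Refines Q) (h' : Q.Refines P) :
    R.Refines P := by
  obtain ⟨f, hf⟩ := h
  obtain ⟨g, hg⟩ := h'
  refine ⟨g ∘ f, fun j => ?_⟩
  rw [hg j, Finset.sum_congr rfl fun i _ => by rw [hf i]]
  simp only [← Finset.sum_filter]
  rw [Finset.sum_sigma' (Finset.univ.filter fun i => g i = j)
    (fun i => Finset.univ.filter fun k => f k = i)]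
  refine Finset.sum_bij (fun x _ => x.2) ?_ ?_ ?_ fun _ _ => rfl
  · rintro ⟨i, k⟩ hk; simp at hk ⊢; rw [hk.2]; exact hk.1
  · rintro ⟨i, k⟩ hk ⟨i', k'⟩ hk' (rfl : k = k')
    simp at hk hk'
    rw [← hk.2, ← hk'.2]
  · intro k hk; simp at hk; exact ⟨⟨f k, k⟩, by simp [hk], rfl⟩

/-- The common refinement of two partitions. -/
def Parti.common (P Q : S.Parti) : S.Parti :=
  ⟨P.n * Q.n, fun k => P.p (finProdFinEquiv.symm k).1 * Q.p (finProdFinEquiv.symm k).2,
    fun k => ⟨mul_mem (P.isPart.1 _).1 (Q.isPart.1 _).1,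
      (P.isPart.1 _).2.mul (Q.isPart.1 _).2 (S.A_comm _ (P.isPart.1 _).1 _ (Q.isPart.1 _).1)⟩,
    fun k l hkl => by
      obtain ⟨⟨i, j⟩, rfl⟩ := finProdFinEquiv.surjective k
      obtain ⟨⟨i', j'⟩, rfl⟩ := finProdFinEquiv.surjective l
      simp only [Equiv.symm_apply_apply]
      rw [mul_assoc, ← mul_assoc (Q.p j), S.A_comm _ (Q.isPart.1 j).1 _ (P.isPart.1 i').1,
        mul_assoc, ← mul_assoc]
      by_cases h1 : i = i'
      · subst h1
        have h2 : j ≠ j' := fun e => hkl (by rw [e])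
        rw [Q.isPart.2.1 _ _ h2, mul_zero]
      · rw [P.isPart.2.1 _ _ h1, zero_mul], by
    rw [← finProdFinEquiv.sum_comp]
    simp [Fintype.sum_prod_type, ← Finset.mul_sum, Q.isPart.2.2, P.isPart.2.2]⟩

theorem Parti.common_refines_left (P Q : S.Parti) : (P.common Q).Refines P := by
  refine ⟨fun k => (finProdFinEquiv.symm k).1, fun i => ?_⟩
  show P.p i = ∑ k, if (finProdFinEquiv.symm k).1 = i then
    P.p (finProdFinEquiv.symm k).1 * Q.p (finProdFinEquiv.symm k).2 else 0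
  rw [← finProdFinEquiv.sum_comp]
  simp [Fintype.sum_prod_type, ← Finset.mul_sum, Q.isPart.2.2,
    apply_ite (fun s : Finset (Fin Q.n) => s.sum), Finset.sum_ite_eq']

theorem Parti.common_refines_right (P Q : S.Parti) : (P.common Q).Refines Q := by
  refine ⟨fun k => (finProdFinEquiv.symm k).2, fun j => ?_⟩
  show Q.p j = ∑ k, if (finProdFinEquiv.symm k).2 = j then
    P.p (finProdFinEquiv.symm k).1 * Q.p (finProdFinEquiv.symm k).2 else 0
  rw [← finProdFinEquiv.sum_comp]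
  simp [Fintype.sum_prod_type, ← Finset.sum_mul, P.isPart.2.2, Finset.sum_ite_eq']

variable (S)

theorem pinch_mem {P : S.Parti} {x : Op H} (hx : x ∈ S.M) : pinch P.p x ∈ S.M :=
  sum_mem fun i _ => mul_mem (mul_mem (S.A_le (P.isPart.1 i).1) hx) (S.A_le (P.isPart.1 i).1)

theorem pinch_pinch {Q P : S.Parti} (h : Q.Refines P) (x : Op H) :
    pinch Q.p (pinch P.p x) = pinch Q.p x := by
  obtain ⟨f, hf⟩ := h
  refine Finset.sum_congr rfl fun i _ => ?_
  have h1 := fun j => Parti.Refines.mul_eq hf i j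
  calc Q.p i * pinch P.p x * Q.p i = ∑ j, Q.p i * P.p j * x * (P.p j * Q.p i) := by
        simp [pinch, Finset.mul_sum, Finset.sum_mul, mul_assoc]
    _ = _ := by
        rw [Finset.sum_eq_single (f i)]
        · simp [h1]
        · intro j _ hj; simp [h1, Ne.symm hj]
        · simp

/-- Pinching does not change traces against the algebra of the partition. -/
theorem tau_mul_pinch {P : S.Parti} {a x : Op H} (ha : a ∈ S.M) (hx : x ∈ S.M)
    (hcomm : ∀ i, P.p i * a = a * P.p i) : S.tau (a * pinch P.p x) = S.tau (a * x) := by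
  have hp : ∀ i, P.p i ∈ S.M := fun i => S.A_le (P.isPart.1 i).1
  rw [pinch, Finset.mul_sum, S.tau_sum]
  calc ∑ i, S.tau (a * (P.p i * x * P.p i)) = ∑ i, S.tau (a * P.p i * x) := by
        refine Finset.sum_congr rfl fun i _ => ?_
        rw [← mul_assoc, S.tau_comm (mul_mem ha (mul_mem (hp i) hx)) (hp i), ← mul_assoc,
          hcomm i, mul_assoc a, ← mul_assoc (P.p i), P.isPart.mul_self, ← mul_assoc]
    _ = _ := by
        rw [← S.tau_sum, ← Finset.sum_mul, ← Finset.mul_sum, P.isPart.2.2, mul_one]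

theorem n2_pinch_sq {P : S.Parti} {x : Op H} (hx : x ∈ S.M) :
    S.n2 (x - pinch P.p x) ^ 2 = S.n2 x ^ 2 - S.n2 (pinch P.p x) ^ 2 := by
  set y := pinch P.p x with hy
  have hyM : y ∈ S.M := S.pinch_mem hx
  have hcy : ∀ i, P.p i * star y = star y * P.p i := fun i => by
    rw [hy, star_pinch P.isPart]
    rw [(mul_pinch P.isPart i _).1, (mul_pinch P.isPart i _).2]
  have h1 : S.tau (star y * y) = S.tau (star y * x) := S.tau_mul_pinch (star_mem hyM) hx hcy
  have h2 : S.tau (star x * y) = starRingEnd ℂ (S.tau (star y * y)) := by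
    rw [h1, ← tau_star, star_mul, star_star]
  rw [n2_sq, n2_sq, n2_sq, star_sub, sub_mul, mul_sub, mul_sub, tau_sub, tau_sub, tau_sub, ← h1, h2,
    Complex.sub_re, Complex.sub_re, Complex.sub_re, Complex.conj_re]
  ring

theorem n2_pinch_le {P : S.Parti} {x : Op H} (hx : x ∈ S.M) : S.n2 (pinch P.p x) ≤ S.n2 x := by
  refine (sq_le_sq₀ (S.n2_nonneg _) (S.n2_nonneg _)).1 ?_
  nlinarith [S.n2_pinch_sq (P := P) hx, sq_nonneg (S.n2 (x - pinch P.p x))]

theorem n2_pinch_le_of_refines {Q P : S.Parti} (h : Q.Refines P) {x : Op H} (hx : x ∈ S.M) :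
    S.n2 (pinch Q.p x) ≤ S.n2 (pinch P.p x) := by
  rw [← S.pinch_pinch h x]
  exact S.n2_pinch_le (S.pinch_mem hx)

theorem n2_pinch_sub_sq {Q P : S.Parti} (h : Q.Refines P) {x : Op H} (hx : x ∈ S.M) :
    S.n2 (pinch P.p x - pinch Q.p x) ^ 2 = S.n2 (pinch P.p x) ^ 2 - S.n2 (pinch Q.p x) ^ 2 := by
  have h1 := S.n2_pinch_sq (P := Q) (S.pinch_mem (P := P) hx)
  rwa [S.pinch_pinch h x] at h1

end Std

end Vale.Agent.P078
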