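import Vale.Agent.P078.Defs

/-!
# P078: the expectation onto the MASA, the multipliers on `L²(A)` and the maps `a ↦ E(X* a Y)`

Only definitions; `Std/Basic.lean` and `Std/Expect.lean` prove their properties.
-/

noncomputable section

namespace Vale.Agent.P078

open scoped InnerProductSpace

universe u

variable {H : Type u} [NormedAddCommGroup H] [InnerProductSpace ℂ H] [CompleteSpace H]

namespace Std

variable (S : Std H)

/-- `y` is the conditional expectation of `x` onto the MASA. -/
def IsExp (x y : Op H) : Prop :=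
  y ∈ S.A ∧ ∀ a ∈ S.A, S.tau (a * y) = S.tau (a * x)

open Classical in
/-- The trace-preserving expectation onto the MASA, zero where there is none. -/
def exp (x : Op H) : Op H := if h : ∃ y, S.IsExp x y then h.choose else 0

instance : CompleteSpace S.L2A :=
  (Submodule.isClosed_topologicalClosure _).completeSpace_coe

/-- The compression of an operator to `L²(A)`. -/
def mul (a : Op H) : S.L2A →L[ℂ] S.L2A :=
  S.L2A.orthogonalProjectionOnto ∘L a ∘L S.L2A.subtypeL

/-- `x ↦ x Ω`, on the algebra. -/
def orbit : S.M →ₗ[ℂ] H where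
  toFun x := (x : Op H) S.Ω
  map_add' _ _ := rfl
  map_smul' _ _ := rfl

/-- `x ↦ x Y Ω`, on the algebra. -/
def orbitRight (Y : Op H) : S.M →ₗ[ℂ] H where
  toFun x := (x : Op H) (Y S.Ω)
  map_add' _ _ := rfl
  map_smul' _ _ := rfl

/-- Right multiplication by `Y`: it maps `x Ω` to `x Y Ω`. -/
def rmul (Y : Op H) : Op H := (S.orbitRight Y).extendOfNorm S.orbit

/-- The map `a Ω ↦ E(X* a Y) Ω` on `L²(A)`. -/
def T (X Y : Op H) : S.L2A →L[ℂ] S.L2A :=
  S.L2A.orthogonalProjectionOnto ∘L (star X ∘L S.rmul Y) ∘L S.L2A.subtypeL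

end Std

end Vale.Agent.P078
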