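import Vale.Agent.P078.Std.Basic

/-!
# P078: spectral projections in the MASA and the trace-preserving expectation
-/

noncomputable section

namespace Vale.Agent.P078

open scoped InnerProductSpace Topology
open Filter

universe u

variable {H : Type u} [NormedAddCommGroup H] [InnerProductSpace ℂ H] [CompleteSpace H]

theorem nonneg_re_inner {x : Op H} (hx : 0 ≤ x) (v : H) : 0 ≤ (⟪v, x v⟫_ℂ).re :=
  ((ContinuousLinearMap.nonneg_iff_isPositive x).1 hx).re_inner_nonneg_right v

theorem norm_le_of_sandwich {x : Op H} {δ : ℝ} (hδ : 0 ≤ δ) (h1 : -((δ : ℂ) • (1 : Op H)) ≤ x)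
    (h2 : x ≤ (δ : ℂ) • (1 : Op H)) : ‖x‖ ≤ δ := by
  have e : (δ : ℂ) • (1 : Op H) = algebraMap ℝ (Op H) δ := by
    rw [Algebra.algebraMap_eq_smul_one, Complex.coe_smul]
  rw [e] at h1 h2
  have hx : IsSelfAdjoint x := by
    have h3 : IsSelfAdjoint (algebraMap ℝ (Op H) δ - x) := (sub_nonneg.2 h2).isSelfAdjoint
    have h4 : IsSelfAdjoint (algebraMap ℝ (Op H) δ) := IsSelfAdjoint.algebraMap _ (by simp [IsSelfAdjoint])
    simpa using h4.sub h3
  have h5 := (le_algebraMap_iff_spectrum_le hx).1 h2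
  rw [← map_neg] at h1
  have h6 := (algebraMap_le_iff_le_spectrum hx).1 h1
  have h7 := norm_cfc_le (f := (id : ℝ → ℝ)) (a := x) hδ fun s hs =>
    abs_le.2 ⟨h6 s hs, h5 s hs⟩
  rwa [cfc_id ℝ x] at h7

namespace Std

variable (S : Std H)

theorem re_tau_nonneg {x : Op H} (hx : 0 ≤ x) : 0 ≤ (S.tau x).re := nonneg_re_inner hx S.Ω

theorem re_tau_mono {x y : Op H} (h : x ≤ y) : (S.tau x).re ≤ (S.tau y).re := by
  have h1 := S.re_tau_nonneg (sub_nonneg.2 h)
  rw [tau_sub, Complex.sub_re] at h1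
  linarith

theorem n2_tendsto_mul_left (c : Op H) {x : ℕ → Op H} {y : Op H}
    (h : Tendsto (fun n => S.n2 (x n - y)) atTop (𝓝 0)) :
    Tendsto (fun n => S.n2 (c * x n - c * y)) atTop (𝓝 0) := by
  refine squeeze_zero (fun n => S.n2_nonneg _) (fun n => ?_) (by simpa using h.const_mul ‖c‖)
  rw [← mul_sub]
  exact S.n2_mul_le _ _

theorem n2_tendsto_mul_right {c : Op H} (hc : c ∈ S.M) {x : ℕ → Op H} {y : Op H}
    (hx : ∀ n, x n ∈ S.M) (hy : y ∈ S.M) (h : Tendsto (fun n => S.n2 (x n - y)) atTop (𝓝 0)) :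
    Tendsto (fun n => S.n2 (x n * c - y * c)) atTop (𝓝 0) := by
  refine squeeze_zero (fun n => S.n2_nonneg _) (fun n => ?_) (by simpa using h.mul_const ‖c‖)
  rw [← sub_mul]
  exact S.n2_mul_le' (sub_mem (hx n) hy) hc

theorem n2_tendsto_star {x : ℕ → Op H} {y : Op H} (hx : ∀ n, x n ∈ S.M) (hy : y ∈ S.M)
    (h : Tendsto (fun n => S.n2 (x n - y)) atTop (𝓝 0)) :
    Tendsto (fun n => S.n2 (star (x n) - star y)) atTop (𝓝 0) := by
  refine h.congr fun n => ?_
  rw [← star_sub, S.n2_star (sub_mem (hx n) hy)]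

theorem smul_mem_A (c : ℂ) {a : Op H} (ha : a ∈ S.A) : c • a ∈ S.A := S.A.smul_mem ha c

/-- Multiplication by a projection of the MASA respects the order inside the MASA. -/
theorem proj_mul_le {g x y : Op H} (hg : g ∈ S.A) (hgp : IsStarProjection g) (hx : x ∈ S.A)
    (hy : y ∈ S.A) (h : x ≤ y) : g * x ≤ g * y := by
  have key : ∀ z ∈ S.A, star g * z * g = g * z := fun z hz => by
    rw [hgp.isSelfAdjoint.star_eq, mul_assoc, S.A_comm z hz g hg, ← mul_assoc,
      hgp.isIdempotentElem.eq]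
  rw [← key x hx, ← key y hy]
  exact star_left_conjugate_le_conjugate h g

/-- Spectral projections of selfadjoint elements of the algebra. -/
theorem exists_spec_M {a : Op H} (ha : a ∈ S.M) (hsa : IsSelfAdjoint a) (t : ℝ) :
    ∃ e ∈ S.M, IsStarProjection e ∧ (∀ z : Op H, z * a = a * z → z * e = e * z) ∧
      (t : ℂ) • e ≤ a * e ∧ a * (1 - e) ≤ (t : ℂ) • (1 - e) := by
  set d : Op H := a - (t : ℂ) • 1 with hd
  have hdM : d ∈ S.M := sub_mem ha (S.M.smul_mem (one_mem _) _)
  have hdsa : IsSelfAdjoint d := hsa.sub (by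
    rw [Complex.coe_smul]
    exact (IsSelfAdjoint.all t).smul (.one _))
  set b : Op H := cfc (fun x : ℝ => max x 0) d with hb
  set c : Op H := cfc (fun x : ℝ => max (-x) 0) d with hc
  set f : ℕ → Op H := fun n => cfc (fun x : ℝ => n * max x 0 / (1 + n * max x 0)) d with hf
  have hden : ∀ (n : ℕ) (x : ℝ), 0 < 1 + (n : ℝ) * max x 0 := fun n x => by positivity
  have hcont : ∀ n : ℕ, Continuous fun x : ℝ => (n : ℝ) * max x 0 / (1 + n * max x 0) := fun n =>
    Continuous.div (by fun_prop) (by fun_prop) fun x => (hden n x).ne'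
  have hfM : ∀ n, f n ∈ S.M := fun n => S.cfc_mem_M _ hdM
  have hfsa : ∀ n, IsSelfAdjoint (f n) := fun n => cfc_predicate _ d
  have hfn : ∀ n, ‖f n‖ ≤ 1 := fun n => norm_cfc_le zero_le_one fun x _ => by
    rw [Real.norm_eq_abs, abs_of_nonneg (by have := hden n x; positivity)]
    exact (div_le_one (hden n x)).2 (by linarith)
  have hmono : ∀ n m : ℕ, n ≤ m → ∀ x : ℝ,
      (n : ℝ) * max x 0 / (1 + n * max x 0) ≤ m * max x 0 / (1 + m * max x 0) := by
    intro n m hnm x
    rw [div_le_div_iff₀ (hden n x) (hden m x)]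
    have : (n : ℝ) * max x 0 ≤ m * max x 0 :=
      mul_le_mul_of_nonneg_right (by exact_mod_cast hnm) (le_max_right x 0)
    nlinarith
  have hstep : ∀ n m : ℕ, n ≤ m →
      S.n2 (f m - f n) ^ 2 ≤ (S.tau (f m)).re - (S.tau (f n)).re := by
    intro n m hnm
    rw [n2_sq, ((hfsa m).sub (hfsa n)).star_eq, ← Complex.sub_re, ← tau_sub]
    refine S.re_tau_mono ?_
    simp only [hf]
    have hsub : Continuous fun x : ℝ => (m : ℝ) * max x 0 / (1 + m * max x 0) -
        (n : ℝ) * max x 0 / (1 + n * max x 0) := (hcont m).sub (hcont n)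
    rw [← cfc_sub _ _ d (hcont m).continuousOn (hcont n).continuousOn,
      ← cfc_mul _ _ d hsub.continuousOn hsub.continuousOn]
    refine cfc_mono (fun x _ => ?_) (hsub.mul hsub).continuousOn hsub.continuousOn
    have h1 := hmono n m hnm x
    have h2 : (m : ℝ) * max x 0 / (1 + m * max x 0) ≤ 1 := (div_le_one (hden m x)).2 (by linarith)
    have h3 : 0 ≤ (n : ℝ) * max x 0 / (1 + n * max x 0) := by have := hden n x; positivity
    nlinarith
  set φ : ℕ → ℝ := fun n => (S.tau (f n)).re with hφ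
  have hφmono : Monotone φ := fun n m hnm => by
    have := hstep n m hnm; nlinarith [sq_nonneg (S.n2 (f m - f n))]
  have hφbd : ∀ n, φ n ≤ 1 := fun n =>
    ((Complex.re_le_norm _).trans (S.norm_tau_le _)).trans ((S.n2_le_norm _).trans (hfn n))
  have hcau : CauchySeq fun n => f n S.Ω := by
    have hlim := tendsto_atTop_ciSup hφmono ⟨1, by rintro _ ⟨n, rfl⟩; exact hφbd n⟩
    rw [Metric.cauchySeq_iff']
    intro ε hε
    obtain ⟨N, hN⟩ := Metric.cauchySeq_iff'.1 hlim.cauchySeq (ε ^ 2) (by positivity)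
    refine ⟨N, fun n hn => ?_⟩
    have h1 := hN n hn
    rw [Real.dist_eq, abs_of_nonneg (sub_nonneg.2 (hφmono hn))] at h1
    have h2 := hstep N n hn
    rw [dist_eq_norm]
    change S.n2 (f n - f N) < ε
    nlinarith [S.n2_nonneg (f n - f N)]
  obtain ⟨e, heM, hen, hes, hlim⟩ := S.exists_strong_limit hfM hfn hcau
  have hecomm : ∀ z : Op H, z * a = a * z → z * e = e * z := by
    intro z hz
    have hdz : Commute d z := (show z * d = d * z by
      rw [hd, mul_sub, sub_mul, mul_smul_comm, smul_mul_assoc, mul_one, one_mul, hz]).symm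
    ext v
    refine tendsto_nhds_unique ((z.continuous.tendsto _).comp (hes v)) ((hes (z v)).congr fun n => ?_)
    exact congrArg (fun w : Op H => w v) (hdz.cfc_real _).eq
  have hesa : IsSelfAdjoint e := S.n2_eq_zero_of_tendsto (star_mem heM) heM
    ((S.n2_tendsto_star hfM heM hlim).congr fun n => by rw [(hfsa n).star_eq]) hlim
  have hbM : b ∈ S.M := S.cfc_mem_M _ hdM
  have hcM : c ∈ S.M := S.cfc_mem_M _ hdM
  have hbe : b * e = b := by
    refine S.n2_eq_zero_of_tendsto (mul_mem hbM heM) hbM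
      (S.n2_tendsto_mul_left b hlim) ?_
    refine squeeze_zero (fun n => S.n2_nonneg _) (fun n => ?_) tendsto_one_div_add_atTop_nhds_zero_nat
      |> (tendsto_add_atTop_iff_nat 1).1
    refine (S.n2_le_norm _).trans ?_
    rw [hb]
    simp only [hf]
    have hp : Continuous fun x : ℝ => max x 0 := by fun_prop
    have hpf : Continuous fun x : ℝ => max x 0 *
        (((n + 1 : ℕ) : ℝ) * max x 0 / (1 + ((n + 1 : ℕ) : ℝ) * max x 0)) := hp.mul (hcont _)
    rw [← cfc_mul _ _ d hp.continuousOn (hcont _).continuousOn,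
      ← cfc_sub _ _ d hpf.continuousOn hp.continuousOn]
    refine norm_cfc_le (by positivity) fun x _ => ?_
    have h0 := hden (n + 1) x
    rw [Real.norm_eq_abs, show max x 0 * (((n + 1 : ℕ) : ℝ) * max x 0 / (1 + ((n + 1 : ℕ) : ℝ) * max x 0))
      - max x 0 = -(max x 0 / (1 + ((n + 1 : ℕ) : ℝ) * max x 0)) by field_simp; ring, abs_neg,
      abs_of_nonneg (by positivity), div_le_div_iff₀ h0 (by positivity)]
    push_cast
    linarith
  have hce : c * e = 0 := by
    refine S.n2_eq_zero_of_tendsto (mul_mem hcM heM) (zero_mem _)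
      (S.n2_tendsto_mul_left c hlim) ?_
    refine tendsto_const_nhds.congr fun n => ?_
    have : c * f n = 0 := by
      rw [hc]
      simp only [hf]
      rw [← cfc_mul _ _ d (by fun_prop) (hcont _).continuousOn, ← cfc_zero ℝ d]
      refine cfc_congr fun x _ => ?_
      rcases le_total x 0 with hx | hx <;> simp [hx]
    simp [this, n2]
  have hfe : ∀ n, f n * e = f n := by
    intro n
    have h1 : f n = cfc (fun x : ℝ => (n : ℝ) / (1 + n * max x 0)) d * b := by
      rw [hb]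
      simp only [hf]
      have hq : Continuous fun x : ℝ => (n : ℝ) / (1 + n * max x 0) :=
        Continuous.div (by fun_prop) (by fun_prop) fun x => (hden n x).ne'
      have hp : Continuous fun x : ℝ => max x 0 := by fun_prop
      rw [← cfc_mul _ _ d hq.continuousOn hp.continuousOn]
      exact cfc_congr fun x _ => by simp [div_mul_eq_mul_div]
    rw [h1, mul_assoc, hbe]
  have hee : e * e = e := S.n2_eq_zero_of_tendsto (mul_mem heM heM) heM
    ((S.n2_tendsto_mul_right heM hfM heM hlim).congr fun n => by rw [hfe n]) hlim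
  have hdbc : d = b - c := by
    rw [hb, hc, ← cfc_sub _ _ d (by fun_prop) (by fun_prop)]
    conv_lhs => rw [← cfc_id ℝ d hdsa]
    exact cfc_congr fun x _ => by rcases le_total x 0 with hx | hx <;> simp [hx]
  have h1 : a * e - (t : ℂ) • e = b := by
    calc a * e - (t : ℂ) • e = d * e := by rw [hd]; simp [sub_mul]
      _ = b := by rw [hdbc, sub_mul, hbe, hce, sub_zero]
  refine ⟨e, heM, ⟨hee, hesa⟩, hecomm, sub_nonneg.1 ?_, sub_nonneg.1 ?_⟩
  · rw [h1, hb]
    exact cfc_nonneg fun x _ => le_max_right _ _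
  · have h2 : (t : ℂ) • (1 - e) - a * (1 - e) = c := by
      calc (t : ℂ) • (1 - e) - a * (1 - e) = -(d * (1 - e)) := by rw [hd]; simp [sub_mul]
        _ = c := by rw [mul_sub, mul_one, hdbc, sub_mul, hbe, hce, sub_zero]; abel
    rw [h2, hc]
    exact cfc_nonneg fun x _ => le_max_right _ _

/-- Spectral projections of selfadjoint elements of the MASA. -/
theorem exists_spec {a : Op H} (ha : a ∈ S.A) (hsa : IsSelfAdjoint a) (t : ℝ) :
    ∃ e ∈ S.A, IsStarProjection e ∧ (t : ℂ) • e ≤ a * e ∧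
      a * (1 - e) ≤ (t : ℂ) • (1 - e) := by
  obtain ⟨e, he, hep, hec, h1, h2⟩ := S.exists_spec_M (S.A_le ha) hsa t
  exact ⟨e, S.A_max e he fun z hz => hec z (S.A_comm z hz a ha), hep, h1, h2⟩

theorem inverse_mem {B : StarSubalgebra ℂ (Op H)} (hB : IsClosed (B : Set (Op H))) {x : Op H}
    (hx : x ∈ B) : Ring.inverse x ∈ B := by
  by_cases hu : IsUnit x
  · haveI := hB
    obtain ⟨u, hu'⟩ := (StarSubalgebra.coe_isUnit B (a := ⟨x, hx⟩)).1 hu
    have h : x = ((Units.map B.subtype.toMonoidHom u : (Op H)ˣ) : Op H) := by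
      simp [hu']
    rw [h, Ring.inverse_unit, ← map_inv]
    exact SetLike.coe_mem _
  · rw [Ring.inverse_non_unit _ hu]
    exact zero_mem _

theorem inverse_mem_A {a : Op H} (ha : a ∈ S.A) : Ring.inverse a ∈ S.A :=
  inverse_mem S.A_isClosed ha

theorem inverse_mem_M {x : Op H} (hx : x ∈ S.M) : Ring.inverse x ∈ S.M :=
  inverse_mem S.M_isClosed hx

theorem sqrt_mem {B : StarSubalgebra ℂ (Op H)} (hB : IsClosed (B : Set (Op H))) {x : Op H}
    (hx : x ∈ B) : CFC.sqrt x ∈ B := by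
  by_cases h0 : 0 ≤ x
  · rw [CFC.sqrt_eq_real_sqrt x h0, cfcₙ_eq_cfc]
    exact cfc_mem (𝕜' := ℂ) (hs := hB) _ hx
  · rw [CFC.sqrt_of_not_nonneg h0]
    exact zero_mem _

theorem sqrt_mem_A {a : Op H} (ha : a ∈ S.A) : CFC.sqrt a ∈ S.A := sqrt_mem S.A_isClosed ha

theorem sqrt_mem_M {x : Op H} (hx : x ∈ S.M) : CFC.sqrt x ∈ S.M := sqrt_mem S.M_isClosed hx

/-- The span of the projections of the MASA. -/
def projSpan : Submodule ℂ (Op H) :=
  Submodule.span ℂ {e | e ∈ S.A ∧ IsStarProjection e}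

theorem projSpan_le {x : Op H} (hx : x ∈ S.projSpan) : x ∈ S.A :=
  Submodule.span_le (p := Subalgebra.toSubmodule S.A.toSubalgebra).2 (fun _ he => he.1) hx

theorem mem_projSpan {e : Op H} (he : e ∈ S.A) (hp : IsStarProjection e) : e ∈ S.projSpan :=
  Submodule.subset_span ⟨he, hp⟩

theorem exists_simple_aux {a : Op H} (ha : a ∈ S.A) (hsa : IsSelfAdjoint a) {δ : ℝ} (hδ : 0 ≤ δ) :
    ∀ (n : ℕ) (t : ℝ) (f : Op H), f ∈ S.A → IsStarProjection f → (t : ℂ) • f ≤ a * f →
      a * f ≤ ((t + n * δ : ℝ) : ℂ) • f →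
      ∃ s ∈ S.projSpan, -((δ : ℂ) • f) ≤ a * f - s ∧ a * f - s ≤ (δ : ℂ) • f := by
  have base : ∀ (t u : ℝ) (f : Op H), f ∈ S.A → IsStarProjection f → u ≤ δ → (t : ℂ) • f ≤ a * f →
      a * f ≤ ((t + u : ℝ) : ℂ) • f →
      ∃ s ∈ S.projSpan, -((δ : ℂ) • f) ≤ a * f - s ∧ a * f - s ≤ (δ : ℂ) • f := by
    intro t u f hf hfp hu h1 h2
    refine ⟨(t : ℂ) • f, Submodule.smul_mem _ _ (S.mem_projSpan hf hfp), ?_, ?_⟩
    · refine le_trans ?_ (sub_nonneg.2 h1)
      rw [neg_nonpos, Complex.coe_smul]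
      exact smul_nonneg hδ hfp.nonneg
    · rw [sub_le_iff_le_add, ← add_smul]
      refine h2.trans ?_
      rw [← Complex.ofReal_add, Complex.coe_smul, Complex.coe_smul]
      exact smul_le_smul_of_nonneg_right (by linarith) hfp.nonneg
  intro n
  induction n with
  | zero => intro t f hf hfp h1 h2; exact base t 0 f hf hfp hδ h1 (by simpa using h2)
  | succ n ih =>
    intro t f hf hfp h1 h2
    obtain ⟨e, he, hep, he1, he2⟩ := S.exists_spec ha hsa (t + δ)
    have hfe := S.A_comm f hf e he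
    have he' : (1 - e) ∈ S.A := sub_mem (one_mem _) he
    have hf1 : IsStarProjection (f * e) := hfp.mul hep hfe
    have hf2 : IsStarProjection (f * (1 - e)) := hfp.mul hep.one_sub (S.A_comm f hf _ he')
    have af : f * a = a * f := S.A_comm f hf a ha
    have ae : e * a = a * e := S.A_comm e he a ha
    have b1 : ((t + δ : ℝ) : ℂ) • (f * e) ≤ a * (f * e) := by
      have := S.proj_mul_le hf hfp (S.smul_mem_A _ he) (mul_mem ha he) he1
      rwa [mul_smul_comm, ← mul_assoc, af, mul_assoc] at this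
    have b2 : a * (f * e) ≤ ((t + δ + n * δ : ℝ) : ℂ) • (f * e) := by
      have := S.proj_mul_le he hep (mul_mem ha hf) (S.smul_mem_A _ hf) h2
      rw [mul_smul_comm, ← mul_assoc, ae, mul_assoc, ← hfe] at this
      convert this using 3
      push_cast; ring
    have c1 : (t : ℂ) • (f * (1 - e)) ≤ a * (f * (1 - e)) := by
      have := S.proj_mul_le he' hep.one_sub (S.smul_mem_A _ hf) (mul_mem ha hf) h1
      rwa [mul_smul_comm, ← mul_assoc, S.A_comm _ he' a ha, mul_assoc, ← S.A_comm f hf _ he'] at this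
    have c2 : a * (f * (1 - e)) ≤ ((t + δ : ℝ) : ℂ) • (f * (1 - e)) := by
      have := S.proj_mul_le hf hfp (mul_mem ha he') (S.smul_mem_A _ he') he2
      rwa [mul_smul_comm, ← mul_assoc, af, mul_assoc] at this
    obtain ⟨s₁, hs₁, p1, q1⟩ := ih (t + δ) (f * e) (mul_mem hf he) hf1 b1 b2
    obtain ⟨s₂, hs₂, p2, q2⟩ := base t δ (f * (1 - e)) (mul_mem hf he') hf2 le_rfl c1 c2
    have hsum : f * e + f * (1 - e) = f := by simp [mul_sub]
    have hsum' : a * f - (s₁ + s₂) = (a * (f * e) - s₁) + (a * (f * (1 - e)) - s₂) := by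
      conv_lhs => rw [← hsum]
      rw [mul_add]; abel
    refine ⟨s₁ + s₂, add_mem hs₁ hs₂, ?_, ?_⟩
    · rw [hsum']
      conv_lhs => rw [← hsum]
      rw [smul_add, neg_add]
      exact add_le_add p1 p2
    · rw [hsum']
      conv_rhs => rw [← hsum]
      rw [smul_add]
      exact add_le_add q1 q2

/-- Selfadjoint elements of the MASA are norm limits of combinations of its projections. -/
theorem exists_simple {a : Op H} (ha : a ∈ S.A) (hsa : IsSelfAdjoint a) {δ : ℝ} (hδ : 0 < δ) :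
    ∃ s ∈ S.projSpan, ‖a - s‖ ≤ δ := by
  obtain ⟨n, hn⟩ := exists_nat_ge (2 * ‖a‖ / δ)
  rw [div_le_iff₀ hδ] at hn
  have e : ∀ u : ℝ, (u : ℂ) • (1 : Op H) = algebraMap ℝ (Op H) u := fun u => by
    rw [Algebra.algebraMap_eq_smul_one, Complex.coe_smul]
  obtain ⟨s, hs, h1, h2⟩ := S.exists_simple_aux ha hsa hδ.le n (-‖a‖) 1 (one_mem _) (.one _)
    (by rw [mul_one, e, map_neg]; exact hsa.neg_algebraMap_norm_le_self)
    (by
      rw [mul_one, e]
      refine hsa.le_algebraMap_norm_self.trans ?_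
      exact algebraMap_mono _ (by linarith))
  rw [mul_one] at h1 h2
  exact ⟨s, hs, norm_le_of_sandwich hδ.le h1 h2⟩

/-- An element commuting with all projections of the MASA commutes with the MASA. -/
theorem mem_A_of_comm_proj {y : Op H} (hy : y ∈ S.M)
    (h : ∀ e ∈ S.A, IsStarProjection e → e * y = y * e) : y ∈ S.A := by
  refine S.A_max y hy fun a ha => ?_
  have hs : ∀ s ∈ S.projSpan, s * y = y * s := by
    intro s hs
    refine Submodule.span_induction (p := fun z _ => z * y = y * z) (fun z hz => h z hz.1 hz.2) (by simp)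
      (fun u v _ _ hu hv => by rw [add_mul, mul_add, hu, hv])
      (fun c u _ hu => by rw [smul_mul_assoc, mul_smul_comm, hu]) hs
  have hsa : ∀ b ∈ S.A, IsSelfAdjoint b → b * y = y * b := by
    intro b hb hbsa
    have hcl : IsClosed {z : Op H | z * y = y * z} :=
      isClosed_eq (continuous_id.mul continuous_const) (continuous_const.mul continuous_id)
    refine hcl.closure_subset (Metric.mem_closure_iff.2 fun ε hε => ?_)
    obtain ⟨s, hsm, hsd⟩ := S.exists_simple hb hbsa (half_pos hε)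
    exact ⟨s, hs s hsm, by rw [dist_eq_norm]; linarith⟩
  have h1 := hsa (a + star a) (add_mem ha (star_mem ha)) (IsSelfAdjoint.add_star_self a)
  have h2 := hsa (Complex.I • (a - star a))
    (S.smul_mem_A _ (sub_mem ha (star_mem ha))) (by
      rw [IsSelfAdjoint, star_smul, star_sub, star_star, Complex.star_def, Complex.conj_I, neg_smul,
        ← smul_neg, neg_sub])
  rw [smul_mul_assoc, mul_smul_comm, smul_right_inj Complex.I_ne_zero, sub_mul, mul_sub] at h2
  rw [add_mul, mul_add] at h1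
  have h3 : (2 : ℂ) • (a * y) = (2 : ℂ) • (y * a) := by
    calc (2 : ℂ) • (a * y) = (a * y + star a * y) + (a * y - star a * y) := by rw [two_smul]; abel
      _ = _ := by rw [h1, h2, two_smul]; abel
  exact smul_right_injective (Op H) two_ne_zero h3

/-! ### The expectation -/

/-- The pieces of `P` commute with pinchings by refinements of `P`. -/
theorem comm_pinch {Q P : S.Parti} (h : Q.Refines P) (j : Fin P.n) (x : Op H) :
    P.p j * pinch Q.p x = pinch Q.p x * P.p j := by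
  obtain ⟨f, hf⟩ := h
  rw [hf j, Finset.sum_mul, Finset.mul_sum]
  refine Finset.sum_congr rfl fun i _ => ?_
  split_ifs
  · rw [(mul_pinch Q.isPart i x).1, (mul_pinch Q.isPart i x).2]
  · simp

theorem exists_exp {x : Op H} (hx : x ∈ S.M) :
    ∃ y, S.IsExp x y ∧ ‖y‖ ≤ ‖x‖ ∧ (0 ≤ x → ∀ v, 0 ≤ (⟪v, y v⟫_ℂ).re) ∧
      S.PTendsto (fun P => S.n2 (pinch P.p x - y)) 0 := by
  set g : S.Parti → ℝ := fun P => S.n2 (pinch P.p x) ^ 2 with hg
  haveI : Nonempty S.Parti := ⟨Parti.one S⟩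
  have hbdd : BddBelow (Set.range g) := ⟨0, by rintro _ ⟨P, rfl⟩; positivity⟩
  have hnear : ∀ k : ℕ, ∃ P, g P < (⨅ P, g P) + 1 / (k + 1) := fun k =>
    exists_lt_of_ciInf_lt (lt_add_of_pos_right _ (by positivity))
  choose P hP using hnear
  set u : ℕ → Op H := fun k => pinch (P k).p x with hu
  have huM : ∀ k, u k ∈ S.M := fun k => S.pinch_mem hx
  have hclose : ∀ k (Q : S.Parti), Q.Refines (P k) →
      S.n2 (u k - pinch Q.p x) ≤ Real.sqrt (1 / (k + 1)) := by
    intro k Q hQ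
    refine Real.le_sqrt_of_sq_le ?_
    rw [hu, S.n2_pinch_sub_sq hQ hx]
    have h1 := ciInf_le hbdd Q
    have h2 := hP k
    simp only [hg] at h1 h2 ⊢
    linarith
  have hε : Tendsto (fun k : ℕ => Real.sqrt (1 / (k + 1))) atTop (𝓝 0) := by
    have h1 := (Real.continuous_sqrt.tendsto 0).comp
      (tendsto_one_div_add_atTop_nhds_zero_nat (𝕜 := ℝ))
    rw [Real.sqrt_zero] at h1
    exact h1
  have hcau : CauchySeq fun k => u k S.Ω := by
    refine cauchySeq_of_le_tendsto_0 (fun k => 2 * Real.sqrt (1 / (k + 1))) (fun n m N hn hm => ?_)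
      (by simpa using hε.const_mul 2)
    rw [dist_eq_norm]
    change S.n2 (u n - u m) ≤ _
    refine (S.n2_sub_le _ (pinch ((P n).common (P m)).p x) _).trans ?_
    rw [S.n2_sub_comm (pinch ((P n).common (P m)).p x) (u m)]
    have h1 := hclose n _ (Parti.common_refines_left (P n) (P m))
    have h2 := hclose m _ (Parti.common_refines_right (P n) (P m))
    have mono : ∀ j, N ≤ j → Real.sqrt (1 / ((j : ℝ) + 1)) ≤ Real.sqrt (1 / ((N : ℝ) + 1)) :=
      fun j hj => Real.sqrt_le_sqrt (one_div_le_one_div_of_le (by positivity) (by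
        have : (N : ℝ) ≤ j := by exact_mod_cast hj
        linarith))
    linarith [mono n hn, mono m hm]
  obtain ⟨y, hyM, hyn, hys, hylim⟩ := S.exists_strong_limit huM
    (fun k => norm_pinch_le (P k).isPart x) hcau
  have hyA : y ∈ S.A := S.mem_A_of_comm_proj hyM fun e he hep => by
    have hlim : Tendsto (fun k => S.n2 (pinch ((P k).common (Parti.ofProj he hep)).p x - y)) atTop
        (𝓝 0) := by
      refine squeeze_zero (fun k => S.n2_nonneg _) (fun k => ?_)
        (by simpa only [add_zero] using hε.add hylim)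
      refine (S.n2_sub_le _ (u k) _).trans (add_le_add ?_ le_rfl)
      rw [S.n2_sub_comm]
      exact hclose k _ (Parti.common_refines_left _ _)
    refine S.n2_eq_zero_of_tendsto (mul_mem (S.A_le he) hyM) (mul_mem hyM (S.A_le he))
      (S.n2_tendsto_mul_left e hlim) ?_
    refine (S.n2_tendsto_mul_right (S.A_le he) (fun k => S.pinch_mem hx) hyM hlim).congr fun k => ?_
    exact congrArg (fun z => S.n2 (z - y * e))
      (S.comm_pinch (Parti.common_refines_right (P k) (Parti.ofProj he hep)) (0 : Fin 2) x).symm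
  refine ⟨y, ⟨hyA, fun a ha => ?_⟩, hyn, fun hx0 v => ?_, fun ε hε' => ?_⟩
  · have h1 : Tendsto (fun k => S.tau (a * u k)) atTop (𝓝 (S.tau (a * y))) := by
      rw [tendsto_iff_norm_sub_tendsto_zero]
      refine squeeze_zero (fun k => norm_nonneg _) (fun k => ?_)
        (by simpa using hylim.const_mul ‖a‖)
      rw [← tau_sub, ← mul_sub]
      exact (S.norm_tau_le _).trans (S.n2_mul_le _ _)
    refine tendsto_nhds_unique h1 (tendsto_const_nhds.congr fun k => ?_)
    exact (S.tau_mul_pinch (S.A_le ha) hx fun i => S.A_comm _ ((P k).isPart.1 i).1 a ha).symm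
  · exact ge_of_tendsto' ((Complex.continuous_re.tendsto _).comp
      (tendsto_const_nhds.inner (hys v))) fun k => nonneg_re_inner (pinch_nonneg (P k).isPart hx0) v
  · obtain ⟨k, hk1, hk2⟩ := ((hε.eventually (gt_mem_nhds (half_pos hε'))).and
      (hylim.eventually (gt_mem_nhds (half_pos hε')))).exists
    refine ⟨P k, fun Q hQ => ?_⟩
    rw [Real.dist_0_eq_abs, abs_of_nonneg (S.n2_nonneg _)]
    refine lt_of_le_of_lt (S.n2_sub_le _ (u k) _) ?_
    rw [S.n2_sub_comm]
    linarith [hclose k Q hQ]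

theorem exp_mem (x : Op H) : S.exp x ∈ S.A := by
  unfold exp
  split_ifs with h
  · exact h.choose_spec.1
  · exact zero_mem _

theorem IsExp.unique {x y y' : Op H} (h : S.IsExp x y) (h' : S.IsExp x y') : y = y' := by
  refine S.eq_of_tau (S.A_le h.1) (S.A_le h'.1) ?_
  have hm : star (y - y') ∈ S.A := star_mem (sub_mem h.1 h'.1)
  rw [h.2 _ hm, h'.2 _ hm]

variable {S}

theorem exp_eq {x y : Op H} (h : S.IsExp x y) : S.exp x = y := by
  have he : ∃ y, S.IsExp x y := ⟨y, h⟩
  rw [exp, dif_pos he]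
  exact IsExp.unique S he.choose_spec h

variable (S)

theorem isExp_exp {x : Op H} (hx : x ∈ S.M) : S.IsExp x (S.exp x) := by
  obtain ⟨y, hy, -⟩ := S.exists_exp hx
  rwa [exp_eq hy]

theorem exp_mem_M (x : Op H) : S.exp x ∈ S.M := S.A_le (S.exp_mem x)

theorem tau_mul_exp {a x : Op H} (ha : a ∈ S.A) (hx : x ∈ S.M) :
    S.tau (a * S.exp x) = S.tau (a * x) :=
  (S.isExp_exp hx).2 a ha

theorem tau_exp_mul {a x : Op H} (ha : a ∈ S.A) (hx : x ∈ S.M) :
    S.tau (S.exp x * a) = S.tau (x * a) := by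
  rw [S.A_comm _ (S.exp_mem x) a ha, S.tau_mul_exp ha hx, S.tau_comm (S.A_le ha) hx]

theorem tau_exp {x : Op H} (hx : x ∈ S.M) : S.tau (S.exp x) = S.tau x := by
  simpa using S.tau_mul_exp (one_mem _) hx

theorem exp_add {x y : Op H} (hx : x ∈ S.M) (hy : y ∈ S.M) :
    S.exp (x + y) = S.exp x + S.exp y :=
  exp_eq ⟨add_mem (S.exp_mem x) (S.exp_mem y), fun a ha => by
    rw [mul_add, mul_add, tau_add, tau_add, S.tau_mul_exp ha hx, S.tau_mul_exp ha hy]⟩

theorem exp_sub {x y : Op H} (hx : x ∈ S.M) (hy : y ∈ S.M) :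
    S.exp (x - y) = S.exp x - S.exp y :=
  exp_eq ⟨sub_mem (S.exp_mem x) (S.exp_mem y), fun a ha => by
    rw [mul_sub, mul_sub, tau_sub, tau_sub, S.tau_mul_exp ha hx, S.tau_mul_exp ha hy]⟩

theorem exp_smul (c : ℂ) {x : Op H} (hx : x ∈ S.M) : S.exp (c • x) = c • S.exp x :=
  exp_eq ⟨S.smul_mem_A c (S.exp_mem x), fun a ha => by
    rw [mul_smul_comm, mul_smul_comm, tau_smul, tau_smul, S.tau_mul_exp ha hx]⟩

theorem exp_of_mem {a : Op H} (ha : a ∈ S.A) : S.exp a = a := exp_eq ⟨ha, fun _ _ => rfl⟩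

theorem exp_zero : S.exp 0 = 0 := S.exp_of_mem (zero_mem _)

theorem exp_one : S.exp 1 = 1 := S.exp_of_mem (one_mem _)

theorem exp_sum {ι : Type*} (s : Finset ι) {x : ι → Op H} (hx : ∀ i ∈ s, x i ∈ S.M) :
    S.exp (∑ i ∈ s, x i) = ∑ i ∈ s, S.exp (x i) :=
  exp_eq ⟨sum_mem fun i _ => S.exp_mem _, fun a ha => by
    rw [Finset.mul_sum, Finset.mul_sum, S.tau_sum, S.tau_sum]
    exact Finset.sum_congr rfl fun i hi => S.tau_mul_exp ha (hx i hi)⟩

theorem exp_star {x : Op H} (hx : x ∈ S.M) : S.exp (star x) = star (S.exp x) :=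
  exp_eq ⟨star_mem (S.exp_mem x), fun a ha => by
    rw [← star_star a, ← star_mul, ← star_mul, S.tau_star, S.tau_star,
      S.tau_exp_mul (star_mem ha) hx]⟩

theorem exp_isSelfAdjoint {x : Op H} (hx : x ∈ S.M) (hsa : IsSelfAdjoint x) :
    IsSelfAdjoint (S.exp x) := by
  rw [IsSelfAdjoint, ← S.exp_star hx, hsa.star_eq]

/-- The expectation is `A`-bimodular. -/
theorem exp_bimod {a b x : Op H} (ha : a ∈ S.A) (hb : b ∈ S.A) (hx : x ∈ S.M) :
    S.exp (a * x * b) = a * S.exp x * b :=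
  exp_eq ⟨mul_mem (mul_mem ha (S.exp_mem x)) hb, fun c hc => by
    have key : ∀ z ∈ S.M, S.tau (c * (a * z * b)) = S.tau (b * c * a * z) := fun z hz => by
      rw [← mul_assoc c (a * z) b,
        S.tau_comm (mul_mem (S.A_le hc) (mul_mem (S.A_le ha) hz)) (S.A_le hb)]
      simp only [mul_assoc]
    rw [key _ (S.exp_mem_M x), key _ hx, S.tau_mul_exp (mul_mem (mul_mem hb hc) ha) hx]⟩

theorem exp_mul_left {a x : Op H} (ha : a ∈ S.A) (hx : x ∈ S.M) :
    S.exp (a * x) = a * S.exp x := by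
  simpa using S.exp_bimod ha (one_mem _) hx

theorem exp_mul_right {b x : Op H} (hb : b ∈ S.A) (hx : x ∈ S.M) :
    S.exp (x * b) = S.exp x * b := by
  simpa using S.exp_bimod (one_mem _) hb hx

theorem norm_exp_le {x : Op H} (hx : x ∈ S.M) : ‖S.exp x‖ ≤ ‖x‖ := by
  obtain ⟨y, hy, hn, -⟩ := S.exists_exp hx
  rwa [exp_eq hy]

theorem exp_nonneg {x : Op H} (hx : x ∈ S.M) (h0 : 0 ≤ x) : 0 ≤ S.exp x := by
  obtain ⟨y, hy, -, hpos, -⟩ := S.exists_exp hx
  have hsa := S.exp_isSelfAdjoint hx h0.isSelfAdjoint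
  rw [exp_eq hy] at hsa ⊢
  rw [ContinuousLinearMap.nonneg_iff_isPositive, ContinuousLinearMap.isPositive_def']
  refine ⟨hsa, fun v => ?_⟩
  rw [ContinuousLinearMap.reApplyInnerSelf_apply, inner_re_symm]
  exact hpos h0 v

theorem exp_mono {x y : Op H} (hx : x ∈ S.M) (hy : y ∈ S.M) (h : x ≤ y) : S.exp x ≤ S.exp y := by
  have h1 := S.exp_nonneg (sub_mem hy hx) (sub_nonneg.2 h)
  rwa [S.exp_sub hy hx, sub_nonneg] at h1

/-- Pinchings tend to the expectation in `L²`. -/
theorem pinch_tendsto {x : Op H} (hx : x ∈ S.M) :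
    S.PTendsto (fun P => S.n2 (pinch P.p x - S.exp x)) 0 := by
  obtain ⟨y, hy, -, -, hlim⟩ := S.exists_exp hx
  rwa [exp_eq hy]

/-! ### `L²(A)` -/

theorem mem_L2A {a : Op H} (ha : a ∈ S.A) : a S.Ω ∈ S.L2A :=
  Submodule.le_topologicalClosure _ (Submodule.subset_span ⟨a, ha, rfl⟩)

theorem L2A_le {K : Submodule ℂ H} (hK : IsClosed (K : Set H))
    (h : ∀ a ∈ S.A, a S.Ω ∈ K) : S.L2A ≤ K :=
  Submodule.topologicalClosure_minimal _
    (Submodule.span_le.2 (by rintro _ ⟨a, ha, rfl⟩; exact h a ha)) hK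

theorem exp_Omega {x : Op H} (hx : x ∈ S.M) :
    S.exp x S.Ω = S.L2A.starProjection (x S.Ω) := by
  refine (Submodule.eq_starProjection_of_mem_of_inner_eq_zero (S.mem_L2A (S.exp_mem x)) ?_).symm
  intro w hw
  have h : S.L2A ≤ (ℂ ∙ (x S.Ω - S.exp x S.Ω))ᗮ := by
    refine S.L2A_le (Submodule.isClosed_orthogonal _) fun a ha => ?_
    rw [Submodule.mem_orthogonal_singleton_iff_inner_left, inner_sub_right, ← tau_star_mul,
      ← tau_star_mul, S.tau_mul_exp (star_mem ha) hx, sub_self]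
  exact (Submodule.mem_orthogonal_singleton_iff_inner_right).1 (h hw)

end Std

end Vale.Agent.P078
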