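import Vale.Agent.P078.Std.Expect

/-!
# P078: the MASA as multipliers on `L²(A)` and the maps `a Ω ↦ E(X* a Y) Ω`
-/

noncomputable section

namespace Vale.Agent.P078

open scoped InnerProductSpace Topology
open Filter

universe u

variable {H : Type u} [NormedAddCommGroup H] [InnerProductSpace ℂ H] [CompleteSpace H]

namespace Std

variable (S : Std H)

/-- Two continuous maps on `L²(A)` agreeing on `A Ω` are equal. -/
theorem L2A_ext {F : Type*} [NormedAddCommGroup F] [NormedSpace ℂ F] {f g : S.L2A →L[ℂ] F}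
    (h : ∀ a : Op H, ∀ ha : a ∈ S.A,
      f ⟨a S.Ω, S.mem_L2A ha⟩ = g ⟨a S.Ω, S.mem_L2A ha⟩) : f = g := by
  set f' : H →L[ℂ] F := f ∘L S.L2A.orthogonalProjectionOnto with hf'
  set g' : H →L[ℂ] F := g ∘L S.L2A.orthogonalProjectionOnto with hg'
  have hle : S.L2A ≤ LinearMap.ker (f' - g').toLinearMap := by
    refine S.L2A_le (ContinuousLinearMap.isClosed_ker _) fun a ha => ?_
    have h1 := S.L2A.orthogonalProjectionOnto_mem_subspace_eq_self ⟨a S.Ω, S.mem_L2A ha⟩
    simp [hf', hg', h1, h a ha]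
  ext v
  have h1 := hle v.2
  simpa [hf', hg', sub_eq_zero, Submodule.orthogonalProjectionOnto_mem_subspace_eq_self] using h1

/-- The trace vector as an element of `L²(A)`. -/
def Ω₀ : S.L2A := ⟨S.Ω, by simpa using S.mem_L2A (one_mem S.A)⟩

/-- Elements of `L²(A)` are limits of vectors `a Ω`. -/
theorem exists_near (v : S.L2A) {ε : ℝ} (hε : 0 < ε) :
    ∃ a ∈ S.A, ‖a S.Ω - (v : H)‖ < ε := by
  obtain ⟨w, hw, hwv⟩ := Metric.mem_closure_iff.1 v.2 ε hε
  obtain ⟨a, ha, rfl⟩ : ∃ a ∈ S.A, a S.Ω = w :=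
    Submodule.span_induction (p := fun z _ => ∃ a ∈ S.A, a S.Ω = z) (fun z hz => hz)
      ⟨0, zero_mem _, rfl⟩
      (fun _ _ _ _ ⟨a, ha, e⟩ ⟨b, hb, e'⟩ => ⟨a + b, add_mem ha hb, by simp [e, e']⟩)
      (fun c _ _ ⟨a, ha, e⟩ => ⟨c • a, S.smul_mem_A c ha, by simp [e]⟩) hw
  exact ⟨a, ha, by rwa [dist_comm, dist_eq_norm] at hwv⟩

theorem apply_mem_L2A {a : Op H} (ha : a ∈ S.A) {v : H} (hv : v ∈ S.L2A) : a v ∈ S.L2A := by
  have h : S.L2A ≤ S.L2A.comap a.toLinearMap :=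
    S.L2A_le ((Submodule.isClosed_topologicalClosure _).preimage a.continuous)
      fun b hb => S.mem_L2A (mul_mem ha hb)
  exact h hv

/-! ### Multipliers -/

theorem coe_mul_apply (a : Op H) (v : S.L2A) :
    (S.mul a v : H) = S.L2A.starProjection (a v) := rfl

theorem mul_apply {a : Op H} (ha : a ∈ S.A) (v : S.L2A) : (S.mul a v : H) = a v :=
  Submodule.starProjection_eq_self_iff.2 (S.apply_mem_L2A ha v.2)

theorem mul_apply_Omega {a b : Op H} (ha : a ∈ S.A) (hb : b ∈ S.A) :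
    S.mul a ⟨b S.Ω, S.mem_L2A hb⟩ = ⟨(a * b) S.Ω, S.mem_L2A (mul_mem ha hb)⟩ :=
  Subtype.ext (S.mul_apply ha _)

theorem mul_one : S.mul 1 = 1 := by
  ext v
  exact S.mul_apply (one_mem _) v

theorem mul_zero : S.mul 0 = 0 := by simp [mul]

theorem mul_add (a b : Op H) : S.mul (a + b) = S.mul a + S.mul b := by
  simp [mul, ContinuousLinearMap.add_comp, ContinuousLinearMap.comp_add]

theorem mul_sub (a b : Op H) : S.mul (a - b) = S.mul a - S.mul b := by
  simp [mul, ContinuousLinearMap.sub_comp, ContinuousLinearMap.comp_sub]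

theorem mul_smul (c : ℂ) (a : Op H) : S.mul (c • a) = c • S.mul a := by
  simp [mul, ContinuousLinearMap.smul_comp, ContinuousLinearMap.comp_smul]

theorem mul_sum {ι : Type*} (s : Finset ι) (a : ι → Op H) :
    S.mul (∑ i ∈ s, a i) = ∑ i ∈ s, S.mul (a i) := by
  classical
  induction s using Finset.induction_on with
  | empty => simpa using S.mul_zero
  | insert i s hi ih => rw [Finset.sum_insert hi, Finset.sum_insert hi, S.mul_add, ih]

theorem mul_mul {a b : Op H} (ha : a ∈ S.A) (hb : b ∈ S.A) :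
    S.mul (a * b) = S.mul a * S.mul b := by
  ext v
  show (S.mul (a * b) v : H) = (S.mul a (S.mul b v) : H)
  rw [S.mul_apply (mul_mem ha hb), S.mul_apply ha, S.mul_apply hb]
  rfl

theorem mul_comm_mul {a b : Op H} (ha : a ∈ S.A) (hb : b ∈ S.A) :
    S.mul a * S.mul b = S.mul b * S.mul a := by
  rw [← S.mul_mul ha hb, ← S.mul_mul hb ha, S.A_comm a ha b hb]

theorem mul_star (a : Op H) : S.mul (star a) = star (S.mul a) := by
  rw [ContinuousLinearMap.star_eq_adjoint (S.mul a), ContinuousLinearMap.eq_adjoint_iff]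
  intro u v
  show ⟪S.L2A.orthogonalProjectionOnto (star a (u : H)), v⟫_ℂ =
    ⟪u, S.L2A.orthogonalProjectionOnto (a (v : H))⟫_ℂ
  rw [Submodule.inner_orthogonalProjectionOnto_eq_of_mem_right,
    Submodule.inner_orthogonalProjectionOnto_eq_of_mem_left,
    ContinuousLinearMap.star_eq_adjoint, ContinuousLinearMap.adjoint_inner_left]

theorem mul_isSelfAdjoint {a : Op H} (hsa : IsSelfAdjoint a) : IsSelfAdjoint (S.mul a) := by
  rw [IsSelfAdjoint, ← S.mul_star, hsa.star_eq]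

theorem norm_mul_le (a : Op H) : ‖S.mul a‖ ≤ ‖a‖ := by
  refine ContinuousLinearMap.opNorm_le_bound (S.mul a) (norm_nonneg a) fun v => ?_
  rw [Submodule.coe_norm, Submodule.coe_norm, coe_mul_apply]
  exact (Submodule.norm_starProjection_apply_le S.L2A (a (v : H))).trans (a.le_opNorm (v : H))

theorem norm_mul {a : Op H} (ha : a ∈ S.A) : ‖S.mul a‖ = ‖a‖ := by
  refine le_antisymm (S.norm_mul_le a) (ContinuousLinearMap.opNorm_le_bound a
    (ContinuousLinearMap.opNorm_nonneg (S.mul a)) fun w => ?_)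
  have hcl : IsClosed {w : H | ‖a w‖ ≤ ‖S.mul a‖ * ‖w‖} :=
    isClosed_le a.continuous.norm (continuous_const.mul continuous_norm)
  refine hcl.closure_subset_iff.2 ?_ (S.cyclic w)
  rintro _ ⟨x, hx, rfl⟩
  have hxx : x * star x ∈ S.M := mul_mem hx (star_mem hx)
  set y := S.exp (x * star x) with hy
  have hy0 : 0 ≤ y := S.exp_nonneg hxx (mul_star_self_nonneg x)
  set c : Op H := cfc Real.sqrt y with hc
  have hcA : c ∈ S.A := S.cfc_mem_A _ (S.exp_mem _)
  have hcc : c * c = y := by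
    rw [hc, ← cfc_mul _ _ y]
    conv_rhs => rw [← cfc_id ℝ y]
    exact cfc_congr fun t ht => Real.mul_self_sqrt (spectrum_nonneg_of_nonneg hy0 ht)
  have hcs : star c = c := (cfc_predicate (R := ℝ) Real.sqrt y : IsSelfAdjoint c).star_eq
  have haa : star a * a ∈ S.A := mul_mem (star_mem ha) ha
  have h1 : S.n2 (a * c) ^ 2 = S.n2 (a * x) ^ 2 := by
    rw [n2_sq, n2_sq]
    congr 1
    calc S.tau (star (a * c) * (a * c)) = S.tau (c * (star a * a * c)) := by
          rw [star_mul, hcs]; simp only [mul_assoc]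
      _ = S.tau (star a * a * y) := by
          rw [S.tau_comm (S.A_le hcA) (S.A_le (mul_mem haa hcA)), mul_assoc (star a * a) c c, hcc]
      _ = S.tau (star a * a * (x * star x)) := S.tau_mul_exp haa hxx
      _ = _ := by
          rw [← mul_assoc (star a * a) x, S.tau_comm (mul_mem (S.A_le haa) hx) (star_mem hx),
            star_mul]
          simp only [mul_assoc]
  have h2 : S.n2 c = S.n2 x := by
    refine (sq_eq_sq₀ (S.n2_nonneg _) (S.n2_nonneg _)).1 ?_
    rw [n2_sq, n2_sq, hcs, hcc, hy, S.tau_exp hxx, S.tau_comm hx (star_mem hx)]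
  have h3 : S.n2 (a * c) ≤ ‖S.mul a‖ * S.n2 c := by
    have h := (S.mul a).le_opNorm ⟨c S.Ω, S.mem_L2A hcA⟩
    rw [Submodule.coe_norm, Submodule.coe_norm, S.mul_apply ha] at h
    exact h
  rw [h2, (sq_eq_sq₀ (S.n2_nonneg _) (S.n2_nonneg _)).1 h1] at h3
  exact h3

theorem mul_inj {a b : Op H} (ha : a ∈ S.A) (hb : b ∈ S.A) (h : S.mul a = S.mul b) : a = b := by
  rw [← sub_eq_zero, ← norm_eq_zero, ← S.norm_mul (sub_mem ha hb), S.mul_sub, h, sub_self]
  exact ContinuousLinearMap.opNorm_zero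

/-- An operator on `L²(A)` commuting with all multipliers is a multiplier. -/
theorem mul_of_commute {D : S.L2A →L[ℂ] S.L2A} (hD : ∀ a ∈ S.A, D * S.mul a = S.mul a * D) :
    ∃ d ∈ S.A, ‖d‖ = ‖D‖ ∧ D = S.mul d := by
  set v : S.L2A := D S.Ω₀ with hv
  have hDb : ∀ b : Op H, ∀ hb : b ∈ S.A, (D ⟨b S.Ω, S.mem_L2A hb⟩ : H) = b (v : H) := by
    intro b hb
    have h1 : S.mul b S.Ω₀ = ⟨b S.Ω, S.mem_L2A hb⟩ := Subtype.ext (S.mul_apply hb _)
    rw [← h1, ← ContinuousLinearMap.mul_apply, hD b hb, ContinuousLinearMap.mul_apply,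
      S.mul_apply hb]
  set K : ℝ := ‖D‖ with hK
  have hbv : ∀ b ∈ S.A, ‖b (v : H)‖ ≤ K * S.n2 b := fun b hb => by
    rw [← hDb b hb]
    exact D.le_opNorm ⟨b S.Ω, S.mem_L2A hb⟩
  have happrox : ∀ n : ℕ, ∃ d ∈ S.A, ‖d‖ ≤ K + 1 ∧ ‖d S.Ω - (v : H)‖ ≤ (2 + K) / (n + 1) := by
    intro n
    obtain ⟨a, ha, hav⟩ := S.exists_near v (show (0 : ℝ) < 1 / (n + 1) by positivity)
    set h : Op H := star a * a with hh
    have hhA : h ∈ S.A := mul_mem (star_mem ha) ha
    have hh0 : 0 ≤ h := star_mul_self_nonneg a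
    obtain ⟨e, he, hep, he1, he2⟩ := S.exists_spec hhA hh0.isSelfAdjoint ((K + 1) ^ 2)
    have hes := hep.isSelfAdjoint.star_eq
    have hee := hep.isIdempotentElem.eq
    have he' : 1 - e ∈ S.A := sub_mem (one_mem _) he
    refine ⟨a * (1 - e), mul_mem ha he', ?_, ?_⟩
    · have h0 : 0 ≤ h * (1 - e) := by
        have h1 := S.proj_mul_le he' hep.one_sub (zero_mem _) hhA hh0
        rwa [MulZeroClass.mul_zero, S.A_comm _ he' _ hhA] at h1
      have h3 : (((K + 1) ^ 2 : ℝ) : ℂ) • (1 - e) ≤ (((K + 1) ^ 2 : ℝ) : ℂ) • (1 : Op H) := by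
        rw [Complex.coe_smul, Complex.coe_smul]
        exact smul_le_smul_of_nonneg_left (sub_le_self _ hep.nonneg) (sq_nonneg _)
      have h4 : ‖h * (1 - e)‖ ≤ (K + 1) ^ 2 :=
        norm_le_of_sandwich (sq_nonneg _) (le_trans (by
          rw [neg_nonpos, Complex.coe_smul]
          exact smul_nonneg (sq_nonneg _) zero_le_one) h0) (he2.trans h3)
      have h5 : star (a * (1 - e)) * (a * (1 - e)) = h * (1 - e) := by
        rw [star_mul, hep.one_sub.isSelfAdjoint.star_eq, mul_assoc, ← mul_assoc (star a), ← hh,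
          ← mul_assoc, S.A_comm _ he' _ hhA, mul_assoc, hep.one_sub.isIdempotentElem.eq]
      rw [← h5, CStarRing.norm_star_mul_self, ← sq] at h4
      exact (sq_le_sq₀ (norm_nonneg _) (by have := norm_nonneg D; positivity)).1 h4
    · have h1 : (K + 1) ^ 2 * S.n2 e ^ 2 ≤ S.n2 (a * e) ^ 2 := by
        have h := S.re_tau_mono he1
        rw [tau_smul, Complex.re_ofReal_mul] at h
        rw [n2_sq, n2_sq, hes, hee, star_mul, hes, mul_assoc, ← mul_assoc (star a), ← hh,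
          S.tau_comm (S.A_le he) (S.A_le (mul_mem hhA he)), mul_assoc, hee]
        exact h
      have h2 : (K + 1) * S.n2 e ≤ S.n2 (a * e) :=
        (sq_le_sq₀ (by have := norm_nonneg D; have := S.n2_nonneg e; positivity)
          (S.n2_nonneg _)).1 (by rw [mul_pow]; exact h1)
      have h6 : ‖e (a S.Ω - (v : H))‖ ≤ 1 / (n + 1) :=
        (e.le_opNorm _).trans (((mul_le_mul_of_nonneg_right (IsStarProjection.norm_le _ hep)
          (norm_nonneg _)).trans (one_mul _).le).trans hav.le)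
      have h7 : S.n2 (a * e) ≤ 1 / (n + 1) + K * S.n2 e := by
        calc S.n2 (a * e) = ‖e (a S.Ω)‖ := by rw [S.A_comm a ha e he]; rfl
          _ = ‖e (a S.Ω - (v : H)) + e (v : H)‖ := by rw [map_sub, sub_add_cancel]
          _ ≤ _ := (norm_add_le _ _).trans (add_le_add h6 (hbv e he))
      have h8 : S.n2 e ≤ 1 / (n + 1) := by nlinarith
      calc ‖(a * (1 - e)) S.Ω - (v : H)‖
          = ‖(a S.Ω - (v : H)) - (e (a S.Ω - (v : H)) + e (v : H))‖ := by
            rw [map_sub, sub_add_cancel, _root_.mul_sub, _root_.mul_one, S.A_comm a ha e he]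
            simp only [ContinuousLinearMap.sub_apply, ContinuousLinearMap.mul_apply]
            abel_nf
        _ ≤ 1 / (n + 1) + (1 / (n + 1) + K * S.n2 e) :=
            (norm_sub_le _ _).trans (add_le_add hav.le
              ((norm_add_le _ _).trans (add_le_add h6 (hbv e he))))
        _ ≤ (2 + K) / (n + 1) := by
            have h9 := mul_le_mul_of_nonneg_left h8 (norm_nonneg D)
            rw [← hK] at h9
            calc _ ≤ 1 / ((n : ℝ) + 1) + (1 / (n + 1) + K * (1 / (n + 1))) := by linarith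
              _ = _ := by ring
  choose d hdA hdn hdv using happrox
  have hlimv : Tendsto (fun n => d n S.Ω) atTop (𝓝 (v : H)) := by
    rw [tendsto_iff_norm_sub_tendsto_zero]
    refine squeeze_zero (fun n => norm_nonneg _) hdv ?_
    simpa [div_eq_mul_inv] using (tendsto_one_div_add_atTop_nhds_zero_nat (𝕜 := ℝ)).const_mul (2 + K)
  have hdM : ∀ n, d n ∈ S.M := fun n => S.A_le (hdA n)
  obtain ⟨d', hdM', -, hds, hlim⟩ := S.exists_strong_limit hdM hdn hlimv.cauchySeq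
  have hdA' : d' ∈ S.A := S.A_max d' hdM' fun z hz =>
    S.n2_eq_zero_of_tendsto (mul_mem (S.A_le hz) hdM') (mul_mem hdM' (S.A_le hz))
      (S.n2_tendsto_mul_left z hlim)
      ((S.n2_tendsto_mul_right (S.A_le hz) hdM hdM' hlim).congr fun n => by
        rw [S.A_comm (d n) (hdA n) z hz])
  have hdΩ : d' S.Ω = (v : H) := tendsto_nhds_unique (hds S.Ω) hlimv
  have hDd : D = S.mul d' := S.L2A_ext fun b hb => Subtype.ext (by
    rw [hDb b hb, S.mul_apply hdA', ← hdΩ]
    exact congrArg (fun z : Op H => z S.Ω) (S.A_comm b hb d' hdA'))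
  exact ⟨d', hdA', by rw [hK, hDd, S.norm_mul hdA'], hDd⟩

/-! ### Right multiplication and the maps `T` -/

theorem denseRange_orbit : DenseRange S.orbit := by
  refine S.cyclic.mono ?_
  rintro _ ⟨x, hx, rfl⟩
  exact ⟨⟨x, hx⟩, rfl⟩

theorem orbitRight_bound {Y : Op H} (hY : Y ∈ S.M) (x : S.M) :
    ‖S.orbitRight Y x‖ ≤ ‖Y‖ * ‖S.orbit x‖ := by
  rw [mul_comm]
  exact S.n2_mul_le' x.2 hY

theorem rmul_apply {Y x : Op H} (hY : Y ∈ S.M) (hx : x ∈ S.M) :
    S.rmul Y (x S.Ω) = x (Y S.Ω) :=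
  LinearMap.extendOfNorm_eq S.denseRange_orbit ⟨_, S.orbitRight_bound hY⟩ (⟨x, hx⟩ : S.M)

theorem norm_rmul_le {Y : Op H} (hY : Y ∈ S.M) : ‖S.rmul Y‖ ≤ ‖Y‖ :=
  LinearMap.opNorm_extendOfNorm_le S.denseRange_orbit (norm_nonneg _) (S.orbitRight_bound hY)

theorem cyclic_ext {F : Type*} [NormedAddCommGroup F] [NormedSpace ℂ F] {f g : H →L[ℂ] F}
    (h : ∀ x ∈ S.M, f (x S.Ω) = g (x S.Ω)) : f = g :=
  ContinuousLinearMap.coeFn_injective <| Continuous.ext_on S.cyclic f.continuous g.continuous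
    (by rintro _ ⟨x, hx, rfl⟩; exact h x hx)

theorem rmul_add {Y Y' : Op H} (hY : Y ∈ S.M) (hY' : Y' ∈ S.M) :
    S.rmul (Y + Y') = S.rmul Y + S.rmul Y' :=
  S.cyclic_ext fun x hx => by
    rw [ContinuousLinearMap.add_apply, S.rmul_apply (add_mem hY hY') hx, S.rmul_apply hY hx,
      S.rmul_apply hY' hx, ContinuousLinearMap.add_apply, map_add]

theorem rmul_smul (c : ℂ) {Y : Op H} (hY : Y ∈ S.M) : S.rmul (c • Y) = c • S.rmul Y :=
  S.cyclic_ext fun x hx => by
    rw [ContinuousLinearMap.smul_apply, S.rmul_apply (S.M.smul_mem hY c) hx, S.rmul_apply hY hx,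
      ContinuousLinearMap.smul_apply, map_smul]

theorem coe_T_apply (X Y : Op H) (v : S.L2A) :
    (S.T X Y v : H) = S.L2A.starProjection (star X (S.rmul Y v)) := rfl

theorem T_apply {X Y a : Op H} (hX : X ∈ S.M) (hY : Y ∈ S.M) (ha : a ∈ S.A) {v : S.L2A}
    (hv : (v : H) = a S.Ω) : (S.T X Y v : H) = S.exp (star X * a * Y) S.Ω := by
  rw [coe_T_apply, hv, S.rmul_apply hY (S.A_le ha),
    S.exp_Omega (mul_mem (mul_mem (star_mem hX) (S.A_le ha)) hY)]
  rfl

theorem T_apply_Omega {X Y a : Op H} (hX : X ∈ S.M) (hY : Y ∈ S.M) (ha : a ∈ S.A) :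
    S.T X Y ⟨a S.Ω, S.mem_L2A ha⟩ = ⟨S.exp (star X * a * Y) S.Ω, S.mem_L2A (S.exp_mem _)⟩ :=
  Subtype.ext (S.T_apply hX hY ha rfl)

theorem norm_T_le {X Y : Op H} (hY : Y ∈ S.M) : ‖S.T X Y‖ ≤ ‖X‖ * ‖Y‖ := by
  refine ContinuousLinearMap.opNorm_le_bound (S.T X Y)
    (_root_.mul_nonneg (norm_nonneg X) (norm_nonneg Y)) fun v => ?_
  rw [Submodule.coe_norm, Submodule.coe_norm, coe_T_apply]
  have h1 := Submodule.norm_starProjection_apply_le S.L2A (star X (S.rmul Y (v : H)))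
  have h2 := (star X).le_opNorm (S.rmul Y (v : H))
  have h3 := (S.rmul Y).le_opNorm (v : H)
  have h4 := mul_le_mul_of_nonneg_right (S.norm_rmul_le hY) (norm_nonneg (v : H))
  rw [norm_star] at h2
  have h5 := mul_le_mul_of_nonneg_left (h3.trans h4) (norm_nonneg X)
  rw [mul_assoc]
  linarith

theorem T_add_left (X X' Y : Op H) : S.T (X + X') Y = S.T X Y + S.T X' Y := by
  simp [T, star_add, ContinuousLinearMap.add_comp, ContinuousLinearMap.comp_add]

theorem T_smul_left (c : ℂ) (X Y : Op H) : S.T (c • X) Y = starRingEnd ℂ c • S.T X Y := by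
  simp [T, star_smul, ContinuousLinearMap.smul_comp, ContinuousLinearMap.comp_smul]

theorem T_add_right {Y Y' : Op H} (X : Op H) (hY : Y ∈ S.M) (hY' : Y' ∈ S.M) :
    S.T X (Y + Y') = S.T X Y + S.T X Y' := by
  simp [T, S.rmul_add hY hY', ContinuousLinearMap.add_comp, ContinuousLinearMap.comp_add]

theorem T_smul_right (c : ℂ) (X : Op H) {Y : Op H} (hY : Y ∈ S.M) :
    S.T X (c • Y) = c • S.T X Y := by
  simp [T, S.rmul_smul c hY, ContinuousLinearMap.smul_comp, ContinuousLinearMap.comp_smul]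

theorem inner_T_Omega {X Y a b : Op H} (hX : X ∈ S.M) (hY : Y ∈ S.M) (ha : a ∈ S.A)
    (hb : b ∈ S.A) :
    ⟪(⟨a S.Ω, S.mem_L2A ha⟩ : S.L2A), S.T X Y ⟨b S.Ω, S.mem_L2A hb⟩⟫_ℂ =
      S.tau (star a * (star X * b * Y)) := by
  rw [Submodule.coe_inner, S.T_apply hX hY hb rfl, ← tau_star_mul,
    S.tau_mul_exp (star_mem ha) (mul_mem (mul_mem (star_mem hX) (S.A_le hb)) hY)]

theorem L2A_ext_inner {f g : S.L2A →L[ℂ] S.L2A}
    (h : ∀ a b : Op H, ∀ ha : a ∈ S.A, ∀ hb : b ∈ S.A,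
      ⟪(⟨a S.Ω, S.mem_L2A ha⟩ : S.L2A), f ⟨b S.Ω, S.mem_L2A hb⟩⟫_ℂ =
        ⟪(⟨a S.Ω, S.mem_L2A ha⟩ : S.L2A), g ⟨b S.Ω, S.mem_L2A hb⟩⟫_ℂ) : f = g := by
  refine S.L2A_ext fun b hb => ext_inner_left ℂ fun w => ?_
  rw [← inner_conj_symm, ← inner_conj_symm w (g _)]
  congr 1
  have h1 : innerSL ℂ (f ⟨b S.Ω, S.mem_L2A hb⟩) = innerSL ℂ (g ⟨b S.Ω, S.mem_L2A hb⟩) :=
    S.L2A_ext fun a ha => by
      simp only [innerSL_apply_apply]
      rw [← inner_conj_symm, h a b ha hb, inner_conj_symm]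
  exact congrArg (fun φ : S.L2A →L[ℂ] ℂ => φ w) h1

theorem T_star {X Y : Op H} (hX : X ∈ S.M) (hY : Y ∈ S.M) :
    star (S.T X Y) = S.T (star X) (star Y) := by
  refine S.L2A_ext_inner fun a b ha hb => ?_
  rw [ContinuousLinearMap.star_eq_adjoint, ContinuousLinearMap.adjoint_inner_right,
    ← inner_conj_symm, S.inner_T_Omega hX hY hb ha,
    S.inner_T_Omega (star_mem hX) (star_mem hY) ha hb, ← tau_star, star_star]
  simp only [star_mul, star_star]
  rw [S.tau_comm (mul_mem (star_mem hY) (mul_mem (star_mem (S.A_le ha)) hX)) (S.A_le hb)]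
  rw [show b * (star Y * (star a * X)) = (b * star Y) * (star a * X) by simp only [mul_assoc],
    S.tau_comm (mul_mem (S.A_le hb) (star_mem hY)) (mul_mem (star_mem (S.A_le ha)) hX)]
  simp only [mul_assoc]

theorem mul_comp_T {X Y a : Op H} (hX : X ∈ S.M) (hY : Y ∈ S.M) (ha : a ∈ S.A) :
    S.mul a * S.T X Y = S.T (X * star a) Y :=
  S.L2A_ext fun b hb => by
    refine (congrArg (S.mul a) (S.T_apply_Omega hX hY hb)).trans ?_
    rw [S.mul_apply_Omega ha (S.exp_mem _), S.T_apply_Omega (mul_mem hX (S.A_le (star_mem ha))) hY hb]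
    refine Subtype.ext (congrArg (fun z : Op H => z S.Ω) ?_)
    rw [← S.exp_mul_left ha (mul_mem (mul_mem (star_mem hX) (S.A_le hb)) hY), star_mul, star_star]
    simp only [mul_assoc]

theorem T_comp_mul {X Y a : Op H} (hX : X ∈ S.M) (hY : Y ∈ S.M) (ha : a ∈ S.A) :
    S.T X Y * S.mul a = S.T (star a * X) Y :=
  S.L2A_ext fun b hb => by
    refine (congrArg (S.T X Y) (S.mul_apply_Omega ha hb)).trans ?_
    rw [S.T_apply_Omega hX hY (mul_mem ha hb),
      S.T_apply_Omega (mul_mem (S.A_le (star_mem ha)) hX) hY hb]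
    refine Subtype.ext (congrArg (fun z : Op H => S.exp z S.Ω) ?_)
    rw [star_mul, star_star]
    simp only [mul_assoc]

theorem T_mem_A {a b : Op H} (ha : a ∈ S.A) (hb : b ∈ S.A) : S.T a b = S.mul (star a * b) :=
  S.L2A_ext fun c hc => by
    rw [S.T_apply_Omega (S.A_le ha) (S.A_le hb) hc,
      S.mul_apply_Omega (mul_mem (star_mem ha) hb) hc]
    refine Subtype.ext (congrArg (fun z : Op H => z S.Ω) ?_)
    rw [S.exp_of_mem (mul_mem (mul_mem (star_mem ha) hc) hb), mul_assoc, mul_assoc,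
      S.A_comm c hc b hb]

end Std

end Vale.Agent.P078
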